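import Vale.Agent.Results.P160.AFewSubspaces

open Finset

namespace Vale.Agent.Results.P160.A00Main

open Vale.Agent.Results.P160.SparseKernel Vale.Agent.Results.P160.AFewSubspaces

/-- **Structured kernel vectors of symmetric sign matrices have at most the conjectured rate.**
(a) For all `n, k`, the probability of a nonzero real kernel vector with at most `k` nonzero
coordinates is at most `V ^ 2 * 4 ^ k / 2 ^ n`, with `V = ∑_{j ≤ k} (n choose j)`.
For every `ε > 0`:
(b) for every integer `E ≥ 1`, for large `n`, the probability of a nonzero real kernel vector with at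
least `⌊n / E⌋` zero coordinates is at most `3 (1/2 + ε) ^ n`;
(c) for large `n`, for every family of at most `n ^ ⌊n/4⌋` linear subspaces of dimension at most
`⌊n/8⌋`, the probability of a nonzero kernel vector in one of them is at most `4 (1/2 + ε) ^ n`;
(d) for large `n`, the probability of a nonzero real kernel vector with at most `n ^ (1/8)` distinct
coordinate values is at most `4 (1/2 + ε) ^ n`. -/
theorem result :
    (∀ n k : ℕ, sparseProb n k ≤
      ((∑ j ∈ range (k + 1), n.choose j : ℕ) : ℝ) ^ 2 * 4 ^ k / 2 ^ n) ∧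
    ∀ ε : ℝ, 0 < ε →
      (∀ E : ℕ, 0 < E → ∃ n₀ : ℕ, ∀ n : ℕ, n₀ ≤ n →
        sparseProb n (n - n / E) ≤ 3 * (1 / 2 + ε) ^ n) ∧
      ∃ n₀ : ℕ, ∀ n : ℕ, n₀ ≤ n →
        (∀ 𝒰 : Finset (Submodule ℝ (Fin n → ℝ)),
          (∀ U ∈ 𝒰, Module.finrank ℝ U ≤ n / 8) → ((𝒰.card : ℕ) : ℝ) ≤ (n : ℝ) ^ (n / 4) →
          familyProb 𝒰 ≤ 4 * (1 / 2 + ε) ^ n) ∧
        fewValuesProb n ≤ 4 * (1 / 2 + ε) ^ n :=
  ⟨SparseKernel.result.1, fun ε hε =>
    ⟨fun E hE => Vale.Agent.Results.P160.AAlmostFull.result ε hε E hE,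
      Vale.Agent.Results.P160.AFewSubspaces.result ε hε⟩⟩

end Vale.Agent.Results.P160.A00Main
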