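import Vale.Agent.Results.P160.AAlmostFull

open Finset

namespace Vale.Agent.Results.P160.AFewSubspaces

open Vale.Agent.Results.P160.SparseKernel Vale.Agent.Results.P160.ASparseHalf
  Vale.Agent.Results.P160.AAlmostFull

/-- Erdős–Littlewood–Offord with a target value. -/
lemma littlewood_offord_target {n : ℕ} (S : Finset (Fin n)) (v : Fin n → ℝ)
    (hv : ∀ j ∈ S, v j ≠ 0) (t : ℝ) :
    (univ.filter fun σ : S → Bool => ∑ j : S, (if σ j then (1 : ℝ) else -1) * v j = t).card ≤
      S.card.choose (S.card / 2) := by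
  classical
  set Sol := (univ.filter fun σ : S → Bool => ∑ j : S, (if σ j then (1 : ℝ) else -1) * v j = t)
    with hSol
  let A : (S → Bool) → Finset S := fun σ =>
    univ.filter fun j => (σ j = true ∧ 0 < v j) ∨ (σ j = false ∧ v j < 0)
  have hterm : ∀ (σ : S → Bool) (j : S),
      (if σ j then (1 : ℝ) else -1) * v j = if j ∈ A σ then |v j| else -|v j| := by
    intro σ j
    have hvj : v j ≠ 0 := hv j j.2
    rcases lt_or_gt_of_ne hvj with hneg | hpos
    · by_cases hσ : σ j = true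
      · simp [A, hσ, hneg, abs_of_neg hneg, not_lt.mpr hneg.le]
      · have hσ' : σ j = false := by simpa using hσ
        simp [A, hσ', hneg, abs_of_neg hneg]
    · by_cases hσ : σ j = true
      · simp [A, hσ, hpos, abs_of_pos hpos]
      · have hσ' : σ j = false := by simpa using hσ
        simp [A, hσ', hpos, abs_of_pos hpos, not_lt.mpr hpos.le]
  have hinj : Set.InjOn A (Sol : Set (S → Bool)) := by
    intro σ _ τ _ h
    funext j
    have hvj : v j ≠ 0 := hv j j.2
    have h1 : j ∈ A σ ↔ j ∈ A τ := by rw [h]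
    simp only [A, mem_filter, mem_univ, true_and] at h1
    rcases lt_or_gt_of_ne hvj with hneg | hpos
    · cases hσ : σ j <;> cases hτ : τ j <;> simp_all [not_lt.mpr hneg.le]
    · cases hσ : σ j <;> cases hτ : τ j <;> simp_all [not_lt.mpr hpos.le]
  have hanti : IsAntichain (· ⊆ ·) ((Sol.image A : Finset (Finset S)) : Set (Finset S)) := by
    intro B hB C hC hne hsub
    obtain ⟨σ, hσ, rfl⟩ := mem_image.mp (mem_coe.mp hB)
    obtain ⟨τ, hτ, rfl⟩ := mem_image.mp (mem_coe.mp hC)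
    have h0σ := (mem_filter.mp hσ).2
    have h0τ := (mem_filter.mp hτ).2
    obtain ⟨j0, hj0τ, hj0σ⟩ : ∃ j, j ∈ A τ ∧ j ∉ A σ := by
      by_contra hcon
      push Not at hcon
      exact hne (Subset.antisymm hsub hcon)
    have hlt : ∑ j : S, (if j ∈ A σ then |v j| else -|v j|) <
        ∑ j : S, (if j ∈ A τ then |v j| else -|v j|) := by
      refine Finset.sum_lt_sum ?_ ⟨j0, mem_univ _, ?_⟩
      · intro j _
        by_cases h1 : j ∈ A σ
        · have h2 : j ∈ A τ := hsub h1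
          simp [h1, h2]
        · by_cases h2 : j ∈ A τ
          · simp only [h1, h2, if_false, if_true]
            have := abs_nonneg (v j)
            linarith
          · simp [h1, h2]
      · have hp : 0 < |v j0| := abs_pos.mpr (hv j0 j0.2)
        simp only [hj0σ, hj0τ, if_false, if_true]
        linarith
    have e1 : ∑ j : S, (if j ∈ A σ then |v j| else -|v j|) = t := by
      rw [← h0σ]
      exact Finset.sum_congr rfl fun j _ => (hterm σ j).symm
    have e2 : ∑ j : S, (if j ∈ A τ then |v j| else -|v j|) = t := by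
      rw [← h0τ]
      exact Finset.sum_congr rfl fun j _ => (hterm τ j).symm
    rw [e1, e2] at hlt
    exact lt_irrefl _ hlt
  have hsp := hanti.sperner
  rw [card_image_of_injOn hinj] at hsp
  simpa using hsp

/-- The rows of the matrix, as linear functionals on a subspace `U`. -/
def rowF {n : ℕ} (a : Sym2 (Fin n) → Bool) (U : Submodule ℝ (Fin n → ℝ)) (i : Fin n) :
    U →ₗ[ℝ] ℝ where
  toFun u := ∑ j, symSign a i j * (u : Fin n → ℝ) j
  map_add' := by
    intro x y
    simp only [Submodule.coe_add, Pi.add_apply, mul_add, Finset.sum_add_distrib]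
  map_smul' := by
    intro c x
    simp only [Submodule.coe_smul, Pi.smul_apply, smul_eq_mul, RingHom.id_apply, Finset.mul_sum]
    refine Finset.sum_congr rfl fun j _ => ?_
    ring

open scoped Classical in
/-- The event attached to a subspace `U`, a row set `R`, and a coordinate set `I2`. -/
noncomputable def evU {n : ℕ} (U : Submodule ℝ (Fin n → ℝ)) (R I2 : Finset (Fin n)) :
    Finset (Sym2 (Fin n) → Bool) :=
  univ.filter fun a =>
    (∃ v : U, (∀ j ∈ I2, (v : Fin n → ℝ) j ≠ 0) ∧ ∀ i, rowF a U i v = 0) ∧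
      ∀ i, rowF a U i ∈ Submodule.span ℝ ((rowF a U) '' (R : Set (Fin n)))

/-- The key count. -/
lemma evU_card {n : ℕ} (U : Submodule ℝ (Fin n → ℝ)) (R I2 : Finset (Fin n))
    (hdisj : Disjoint R I2) :
    (evU U R I2).card * 2 ^ (I2.card * (univ \ (R ∪ I2)).card) ≤
      2 ^ Fintype.card (Sym2 (Fin n)) * (I2.card.choose (I2.card / 2)) ^ (univ \ (R ∪ I2)).card := by
  classical
  set I : Finset (Fin n) := univ \ (R ∪ I2) with hI
  have hImem : ∀ i, i ∈ I ↔ i ∉ R ∧ i ∉ I2 := by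
    intro i
    simp [hI]
  set PI : Finset (Sym2 (Fin n)) := (I ×ˢ I2).image (fun p => s(p.1, p.2)) with hPI
  have hPIcard : PI.card = I2.card * I.card := by
    rw [hPI, card_image_of_injOn, card_product, mul_comm]
    rintro ⟨i, j⟩ hp ⟨i2, j2⟩ hp2 h
    simp only [coe_product, Set.mem_prod, mem_coe] at hp hp2
    simp only [Sym2.eq_iff] at h
    rcases h with ⟨h1, h2⟩ | ⟨h1, _⟩
    · rw [h1, h2]
    · exact absurd (h1 ▸ hp2.2) ((hImem i).1 hp.1).2
  let res : (Sym2 (Fin n) → Bool) → ({x // x ∉ PI} → Bool) := fun a x => a x.1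
  have himg : ((evU U R I2).image res).card ≤ 2 ^ (Fintype.card (Sym2 (Fin n)) - PI.card) := by
    calc ((evU U R I2).image res).card ≤ (univ : Finset ({x // x ∉ PI} → Bool)).card :=
          card_le_card (subset_univ _)
      _ = 2 ^ Fintype.card {x // x ∉ PI} := by
          rw [card_univ]; simp
      _ = 2 ^ (Fintype.card (Sym2 (Fin n)) - PI.card) := by
          congr 1
          rw [Fintype.card_subtype_compl]
          simp
  have hfib : ∀ c ∈ (evU U R I2).image res,
      ((evU U R I2).filter fun a => res a = c).card ≤ (I2.card.choose (I2.card / 2)) ^ I.card := by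
    intro c hc
    obtain ⟨a0, ha0, rfl⟩ := mem_image.mp hc
    obtain ⟨⟨v, hv, hker⟩, -⟩ := (mem_filter.mp ha0).2
    -- the target value of each row
    let t : I → ℝ := fun i => - ∑ j ∈ univ \ I2, symSign a0 i.1 j * (v : Fin n → ℝ) j
    let Sol : I → Finset (I2 → Bool) := fun i =>
      univ.filter fun σ : I2 → Bool =>
        ∑ j : I2, (if σ j then (1 : ℝ) else -1) * (v : Fin n → ℝ) j = t i
    have hSolcard : ∀ i, (Sol i).card ≤ I2.card.choose (I2.card / 2) := fun i =>
      littlewood_offord_target I2 (v : Fin n → ℝ) hv (t i)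
    let φ : (Sym2 (Fin n) → Bool) → (I → I2 → Bool) := fun a i j => a s(i.1, j.1)
    have hmaps : ∀ a ∈ ((evU U R I2).filter fun a => res a = res a0),
        φ a ∈ Fintype.piFinset Sol := by
      intro a ha
      obtain ⟨haB, hres⟩ := mem_filter.mp ha
      obtain ⟨-, hspan⟩ := (mem_filter.mp haB).2
      have hoff : ∀ x, x ∉ PI → a x = a0 x := fun x hx => congrFun hres ⟨x, hx⟩
      have hRrows : ∀ r ∈ R, rowF a U r = rowF a0 U r := by
        intro r hr
        refine LinearMap.ext fun u => ?_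
        show ∑ j, symSign a r j * (u : Fin n → ℝ) j = ∑ j, symSign a0 r j * (u : Fin n → ℝ) j
        refine Finset.sum_congr rfl fun j _ => ?_
        have hne : s(r, j) ∉ PI := by
          simp only [hPI, mem_image, mem_product, not_exists, not_and, Prod.exists]
          intro i2 j2 hp h
          simp only [Sym2.eq_iff] at h
          rcases h with ⟨h1, _⟩ | ⟨_, h1⟩
          · exact ((hImem i2).1 hp.1).1 (h1 ▸ hr)
          · exact (disjoint_left.mp hdisj hr) (by rw [← h1]; exact hp.2)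
        rw [symSign_eq_iff.2 (hoff _ hne)]
      have hzero : ∀ i, rowF a U i v = 0 := by
        intro i
        let ev : (U →ₗ[ℝ] ℝ) →ₗ[ℝ] ℝ := LinearMap.applyₗ v
        have hsub : Submodule.span ℝ ((rowF a U) '' (R : Set (Fin n))) ≤ LinearMap.ker ev := by
          rw [Submodule.span_le]
          rintro _ ⟨r, hr, rfl⟩
          show rowF a U r v = 0
          rw [hRrows r (mem_coe.1 hr)]
          exact hker r
        exact hsub (hspan i)
      rw [Fintype.mem_piFinset]
      intro i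
      refine mem_filter.mpr ⟨mem_univ _, ?_⟩
      have hi2 : i.1 ∉ I2 := ((hImem i.1).1 i.2).2
      have hsplit : ∑ j, symSign a i.1 j * (v : Fin n → ℝ) j =
          ∑ j ∈ I2, symSign a i.1 j * (v : Fin n → ℝ) j +
            ∑ j ∈ univ \ I2, symSign a i.1 j * (v : Fin n → ℝ) j := by
        rw [add_comm, Finset.sum_sdiff (subset_univ _)]
      have hrest : ∑ j ∈ univ \ I2, symSign a i.1 j * (v : Fin n → ℝ) j =
          ∑ j ∈ univ \ I2, symSign a0 i.1 j * (v : Fin n → ℝ) j := by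
        refine Finset.sum_congr rfl fun j hj => ?_
        have hj' : j ∉ I2 := (mem_sdiff.mp hj).2
        have hne : s(i.1, j) ∉ PI := by
          simp only [hPI, mem_image, mem_product, not_exists, not_and, Prod.exists]
          intro i3 j3 hp h
          simp only [Sym2.eq_iff] at h
          rcases h with ⟨_, h2⟩ | ⟨_, h1⟩
          · exact hj' (by rw [← h2]; exact hp.2)
          · exact hi2 (by rw [← h1]; exact hp.2)
        rw [symSign_eq_iff.2 (hoff _ hne)]
      have hcoe : ∑ j : I2, (if φ a i j then (1 : ℝ) else -1) * (v : Fin n → ℝ) j =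
          ∑ j ∈ I2, symSign a i.1 j * (v : Fin n → ℝ) j :=
        Finset.sum_coe_sort I2 (fun j => symSign a i.1 j * (v : Fin n → ℝ) j)
      have hz : ∑ j, symSign a i.1 j * (v : Fin n → ℝ) j = 0 := hzero i.1
      rw [hcoe]
      show ∑ j ∈ I2, symSign a i.1 j * (v : Fin n → ℝ) j = t i
      show _ = - ∑ j ∈ univ \ I2, symSign a0 i.1 j * (v : Fin n → ℝ) j
      rw [← hrest]
      linarith
    have hinjφ : Set.InjOn φ (((evU U R I2).filter fun a => res a = res a0 :
        Finset (Sym2 (Fin n) → Bool)) : Set (Sym2 (Fin n) → Bool)) := by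
      intro a ha b hb h
      have hresa := (mem_filter.mp (mem_coe.mp ha)).2
      have hresb := (mem_filter.mp (mem_coe.mp hb)).2
      funext x
      by_cases hx : x ∈ PI
      · obtain ⟨⟨i, j⟩, hp, rfl⟩ := mem_image.mp hx
        have hp' := mem_product.mp hp
        have := congrFun (congrFun h ⟨i, hp'.1⟩) ⟨j, hp'.2⟩
        exact this
      · have h1 : a x = a0 x := congrFun hresa ⟨x, hx⟩
        have h2 : b x = a0 x := congrFun hresb ⟨x, hx⟩
        rw [h1, h2]
    calc ((evU U R I2).filter fun a => res a = res a0).card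
        ≤ (Fintype.piFinset Sol).card := card_le_card_of_injOn φ hmaps hinjφ
      _ = ∏ i, (Sol i).card := Fintype.card_piFinset _
      _ ≤ (I2.card.choose (I2.card / 2)) ^ (univ : Finset I).card :=
          Finset.prod_le_pow_card _ _ _ fun i _ => hSolcard i
      _ = (I2.card.choose (I2.card / 2)) ^ I.card := by simp
  have hmain := card_le_mul_card_image (evU U R I2) _ hfib
  have hle : PI.card ≤ Fintype.card (Sym2 (Fin n)) := card_le_univ _
  calc (evU U R I2).card * 2 ^ (I2.card * I.card)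
      ≤ ((I2.card.choose (I2.card / 2)) ^ I.card *
          2 ^ (Fintype.card (Sym2 (Fin n)) - PI.card)) * 2 ^ PI.card := by
        rw [hPIcard] at himg hle ⊢
        exact Nat.mul_le_mul_right _ (hmain.trans (Nat.mul_le_mul_left _ himg))
    _ = (I2.card.choose (I2.card / 2)) ^ I.card * 2 ^ Fintype.card (Sym2 (Fin n)) := by
        rw [mul_assoc, ← pow_add, Nat.sub_add_cancel hle]
    _ = _ := mul_comm _ _

lemma evU_density {n : ℕ} (U : Submodule ℝ (Fin n → ℝ)) (R I2 : Finset (Fin n))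
    (hdisj : Disjoint R I2) :
    ((evU U R I2).card : ℝ) / 2 ^ Fintype.card (Sym2 (Fin n)) ≤
      (((I2.card.choose (I2.card / 2) : ℕ) : ℝ) / 2 ^ I2.card) ^ (univ \ (R ∪ I2)).card := by
  have h := evU_card U R I2 hdisj
  have h' : ((evU U R I2).card : ℝ) * 2 ^ (I2.card * (univ \ (R ∪ I2)).card) ≤
      2 ^ Fintype.card (Sym2 (Fin n)) *
        ((I2.card.choose (I2.card / 2) : ℕ) : ℝ) ^ (univ \ (R ∪ I2)).card := by
    exact_mod_cast h
  rw [div_pow, ← pow_mul, div_le_div_iff₀ (by positivity) (by positivity)]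
  calc _ ≤ _ := h'
    _ = _ := by ring

/-- Pinning the kernel vector: a spanning row set `R` and a coordinate set `I2` in the support. -/
lemma exists_R_I2 {n d t' : ℕ} {a : Sym2 (Fin n) → Bool} {U : Submodule ℝ (Fin n → ℝ)}
    (hU : Module.finrank ℝ U ≤ d) (v : U) (hker : ∀ i, rowF a U i v = 0)
    (hsupp : t' + d ≤ (univ.filter fun j => (v : Fin n → ℝ) j ≠ 0).card) :
    ∃ R I2 : Finset (Fin n), R.card ≤ d ∧ I2.card = t' ∧ Disjoint R I2 ∧ a ∈ evU U R I2 := by
  classical
  obtain ⟨f, hf, hspan, -⟩ :=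
    Submodule.exists_fun_fin_finrank_span_eq ℝ (Set.range (rowF a U))
  choose g hg using hf
  let R : Finset (Fin n) := univ.image g
  have hRcard : R.card ≤ d := by
    have h1 : R.card ≤ Module.finrank ℝ (Submodule.span ℝ (Set.range (rowF a U))) := by
      calc R.card ≤ (univ : Finset (Fin (Module.finrank ℝ
            (Submodule.span ℝ (Set.range (rowF a U)))))).card := card_image_le
        _ = _ := by simp
    have h2 : Module.finrank ℝ (Submodule.span ℝ (Set.range (rowF a U))) ≤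
        Module.finrank ℝ (U →ₗ[ℝ] ℝ) := Submodule.finrank_le _
    have h3 : Module.finrank ℝ (U →ₗ[ℝ] ℝ) = Module.finrank ℝ U := Subspace.dual_finrank_eq
    omega
  have hcard : t' ≤ ((univ.filter fun j => (v : Fin n → ℝ) j ≠ 0) \ R).card := by
    have := le_card_sdiff R (univ.filter fun j => (v : Fin n → ℝ) j ≠ 0)
    omega
  obtain ⟨I2, hI2sub, hI2card⟩ := exists_subset_card_eq hcard
  refine ⟨R, I2, hRcard, hI2card, ?_, ?_⟩
  · rw [disjoint_left]
    intro x hxR hxI
    exact (mem_sdiff.mp (hI2sub hxI)).2 hxR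
  · refine mem_filter.mpr ⟨mem_univ _, ⟨v, ?_, hker⟩, ?_⟩
    · intro j hj
      have := (mem_sdiff.mp (hI2sub hj)).1
      exact (mem_filter.mp this).2
    · intro i
      have hle : Set.range f ⊆ (rowF a U) '' (R : Set (Fin n)) := by
        rintro _ ⟨m, rfl⟩
        refine ⟨g m, ?_, hg m⟩
        simp [R]
      have h3 : Submodule.span ℝ (Set.range (rowF a U)) ≤
          Submodule.span ℝ ((rowF a U) '' (R : Set (Fin n))) := by
        rw [← hspan]
        exact Submodule.span_mono hle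
      exact h3 (Submodule.subset_span ⟨i, rfl⟩)

open scoped Classical in
/-- The probability that some subspace of the family contains a nonzero kernel vector. -/
noncomputable def familyProb {n : ℕ} (𝒰 : Finset (Submodule ℝ (Fin n → ℝ))) : ℝ :=
  ((univ.filter fun a : Sym2 (Fin n) → Bool =>
      ∃ U ∈ 𝒰, ∃ v ∈ U, v ≠ 0 ∧ ∀ i, ∑ j, symSign a i j * v j = 0).card : ℝ) /
    (Fintype.card (Sym2 (Fin n) → Bool) : ℝ)

/-- **Kernel vectors in few subspaces.** For every `ε > 0` there is `n₀` such that for all `n ≥ n₀` and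
every family of at most `n ^ ⌊n/4⌋` linear subspaces of `ℝⁿ`, each of dimension at most `⌊n/8⌋`, the
probability that the random symmetric sign matrix has a nonzero kernel vector in one of these
subspaces is at most `4 (1/2 + ε) ^ n`. -/
theorem family_bound (ε : ℝ) (hε : 0 < ε) :
    ∃ n₀ : ℕ, ∀ n : ℕ, n₀ ≤ n → ∀ 𝒰 : Finset (Submodule ℝ (Fin n → ℝ)),
      (∀ U ∈ 𝒰, Module.finrank ℝ U ≤ n / 8) → ((𝒰.card : ℕ) : ℝ) ≤ (n : ℝ) ^ (n / 4) →
      familyProb 𝒰 ≤ 4 * (1 / 2 + ε) ^ n := by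
  classical
  obtain ⟨n1, hn1⟩ := AAlmostFull.result ε hε 2 (by norm_num)
  refine ⟨max n1 (2 ^ 512), ?_⟩
  intro n hn 𝒰 hdim hcard
  have hn1' : n1 ≤ n := le_trans (le_max_left _ _) hn
  have hn2 : 2 ^ 512 ≤ n := le_trans (le_max_right _ _) hn
  have hn32 : 32 ≤ n := by
    have h32 : (32 : ℕ) ≤ 2 ^ 512 :=
      calc (32 : ℕ) = 2 ^ 5 := by norm_num
        _ ≤ 2 ^ 512 := Nat.pow_le_pow_right (by norm_num) (by norm_num)
    exact le_trans h32 hn2
  have hnR : (0 : ℝ) < n := by
    have : 0 < n := by omega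
    exact_mod_cast this
  have hn2R : (2 : ℝ) ^ 512 ≤ n := by exact_mod_cast hn2
  set d := n / 8 with hd
  set t' := n / 4 with ht'
  set q := 5 * n / 16 with hq
  set r := q - t' with hr
  have hqt : q = t' + r := by omega
  have h32r : n ≤ 32 * r := by omega
  set P : Finset (Finset (Fin n)) := univ with hP
  set T : Finset (Submodule ℝ (Fin n → ℝ) × Finset (Fin n) × Finset (Fin n)) :=
    (𝒰 ×ˢ (P ×ˢ P)).filter fun p => p.2.1.card ≤ d ∧ p.2.2.card = t' ∧ Disjoint p.2.1 p.2.2 with hT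
  have hsub : (univ.filter fun a : Sym2 (Fin n) → Bool =>
      ∃ U ∈ 𝒰, ∃ v ∈ U, v ≠ 0 ∧ ∀ i, ∑ j, symSign a i j * v j = 0) ⊆
      (univ.filter fun a : Sym2 (Fin n) → Bool => HasSparseKernel (n - n / 2) a) ∪
        T.biUnion fun p => evU p.1 p.2.1 p.2.2 := by
    intro a ha
    obtain ⟨U, hU, v, hvU, hv0, hker⟩ := (mem_filter.mp ha).2
    by_cases hcase : (univ.filter fun j => v j ≠ 0).card ≤ n - n / 2
    · exact mem_union_left _ (mem_filter.mpr ⟨mem_univ _, v, hv0, hcase, hker⟩)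
    · refine mem_union_right _ ?_
      have hsupp : t' + d ≤ (univ.filter fun j => ((⟨v, hvU⟩ : U) : Fin n → ℝ) j ≠ 0).card := by
        have : (univ.filter fun j => ((⟨v, hvU⟩ : U) : Fin n → ℝ) j ≠ 0) =
            (univ.filter fun j => v j ≠ 0) := rfl
        rw [this]
        omega
      obtain ⟨R, I2, hR, hI2, hdisj, hmem⟩ :=
        exists_R_I2 (hdim U hU) ⟨v, hvU⟩ hker hsupp
      refine mem_biUnion.mpr ⟨(U, R, I2), ?_, hmem⟩
      simp only [hT, hP, mem_filter, mem_product, mem_univ, and_self, and_true]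
      exact ⟨hU, hR, hI2, hdisj⟩
  -- density of one event
  have hterm : ∀ p ∈ T, ((evU p.1 p.2.1 p.2.2).card : ℝ) / 2 ^ Fintype.card (Sym2 (Fin n)) ≤
      (4 / (n : ℝ)) ^ q := by
    rintro ⟨U, R, I2⟩ hp
    simp only [hT, hP, mem_filter, mem_product, mem_univ, and_self, and_true] at hp
    obtain ⟨-, hR, hI2, hdisj⟩ := hp
    refine (evU_density U R I2 hdisj).trans ?_
    set κ : ℝ := ((I2.card.choose (I2.card / 2) : ℕ) : ℝ) / 2 ^ I2.card with hκ
    have hκ0 : 0 ≤ κ := by positivity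
    have hwallis : κ ^ 2 * ((I2.card : ℝ) + 1) ≤ 1 := by
      have h := choose_half_sq_le I2.card
      have h' : ((I2.card.choose (I2.card / 2) : ℕ) : ℝ) ^ 2 * ((I2.card : ℝ) + 1) ≤ 4 ^ I2.card := by
        exact_mod_cast h
      have h4 : ((2 : ℝ) ^ I2.card) ^ 2 = 4 ^ I2.card := by
        rw [← pow_mul, mul_comm, pow_mul]; norm_num
      rw [hκ, div_pow, h4, div_mul_eq_mul_div, div_le_one (by positivity)]
      exact h'
    have hκ2 : κ ^ 2 ≤ 4 / (n : ℝ) := by
      have hle : n ≤ 4 * (I2.card + 1) := by omega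
      have hle' : (n : ℝ) ≤ 4 * ((I2.card : ℝ) + 1) := by exact_mod_cast hle
      rw [le_div_iff₀ hnR]
      have hκsq : 0 ≤ κ ^ 2 := by positivity
      nlinarith
    have hκ1 : κ ≤ 1 := by
      have hs : (0 : ℝ) ≤ I2.card := Nat.cast_nonneg _
      have : κ ^ 2 ≤ 1 := by nlinarith [sq_nonneg κ]
      nlinarith [sq_nonneg (κ - 1)]
    have hI : 2 * q ≤ (univ \ (R ∪ I2)).card := by
      have h2 : (univ \ (R ∪ I2)).card = n - (R ∪ I2).card := by
        rw [card_sdiff_of_subset (subset_univ _)]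
        simp
      have h3 : (R ∪ I2).card ≤ R.card + I2.card := card_union_le _ _
      omega
    calc κ ^ (univ \ (R ∪ I2)).card ≤ κ ^ (2 * q) := pow_le_pow_of_le_one hκ0 hκ1 hI
      _ = (κ ^ 2) ^ q := pow_mul _ _ _
      _ ≤ (4 / (n : ℝ)) ^ q := pow_le_pow_left₀ (by positivity) hκ2 q
  -- the numerical bound
  have hnum : ((𝒰.card : ℕ) : ℝ) * 4 ^ n * (4 / (n : ℝ)) ^ q ≤ (1 / 2 + ε) ^ n := by
    have hnr : (2 : ℝ) ^ (16 * n) ≤ (n : ℝ) ^ r := by
      calc (2 : ℝ) ^ (16 * n) ≤ (2 : ℝ) ^ (512 * r) :=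
            pow_le_pow_right₀ (by norm_num) (by omega)
        _ = ((2 : ℝ) ^ 512) ^ r := pow_mul _ _ _
        _ ≤ (n : ℝ) ^ r := pow_le_pow_left₀ (by positivity) hn2R r
    have h4q : (4 : ℝ) ^ q ≤ 4 ^ n := pow_le_pow_right₀ (by norm_num) (by omega)
    have e1 : (4 / (n : ℝ)) ^ q = 4 ^ q / ((n : ℝ) ^ t' * (n : ℝ) ^ r) := by
      rw [div_pow, hqt, pow_add (n : ℝ)]
    have hnt : 0 < (n : ℝ) ^ t' := by positivity
    have hnr0 : 0 < (n : ℝ) ^ r := by positivity
    have h1 : ((𝒰.card : ℕ) : ℝ) * 4 ^ n * (4 / (n : ℝ)) ^ q ≤ 16 ^ n / 2 ^ (16 * n) := by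
      rw [e1]
      calc ((𝒰.card : ℕ) : ℝ) * 4 ^ n * (4 ^ q / ((n : ℝ) ^ t' * (n : ℝ) ^ r))
          ≤ (n : ℝ) ^ t' * 4 ^ n * (4 ^ n / ((n : ℝ) ^ t' * (n : ℝ) ^ r)) := by
            gcongr
        _ = 16 ^ n / (n : ℝ) ^ r := by
            have : (16 : ℝ) ^ n = 4 ^ n * 4 ^ n := by rw [← mul_pow]; norm_num
            rw [this]
            field_simp
        _ ≤ 16 ^ n / 2 ^ (16 * n) := by
            apply div_le_div_of_nonneg_left (by positivity) (by positivity) hnr
    have h2 : (16 : ℝ) ^ n / 2 ^ (16 * n) ≤ (1 / 2 + ε) ^ n := by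
      have e2 : (16 : ℝ) ^ n / 2 ^ (16 * n) = (1 / 4096 : ℝ) ^ n := by
        rw [pow_mul, ← div_pow]
        norm_num
      rw [e2]
      exact pow_le_pow_left₀ (by norm_num) (by linarith) n
    exact h1.trans h2
  have hTcard : ((T.card : ℕ) : ℝ) ≤ ((𝒰.card : ℕ) : ℝ) * 4 ^ n := by
    have h1 : T.card ≤ (𝒰 ×ˢ (P ×ˢ P)).card := card_filter_le _ _
    have h2 : (𝒰 ×ˢ (P ×ˢ P)).card = 𝒰.card * (2 ^ n * 2 ^ n) := by
      rw [card_product, card_product, hP, card_univ]
      simp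
    have h3 : T.card ≤ 𝒰.card * 4 ^ n := by
      rw [h2] at h1
      calc T.card ≤ 𝒰.card * (2 ^ n * 2 ^ n) := h1
        _ = 𝒰.card * 4 ^ n := by rw [← mul_pow]; norm_num
    exact_mod_cast h3
  set N : ℝ := 2 ^ Fintype.card (Sym2 (Fin n)) with hN
  have hN0 : 0 < N := by positivity
  have hcount : ((univ.filter fun a : Sym2 (Fin n) → Bool =>
      ∃ U ∈ 𝒰, ∃ v ∈ U, v ≠ 0 ∧ ∀ i, ∑ j, symSign a i j * v j = 0).card : ℝ) ≤
      ((univ.filter fun a : Sym2 (Fin n) → Bool => HasSparseKernel (n - n / 2) a).card : ℝ) +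
        ∑ p ∈ T, ((evU p.1 p.2.1 p.2.2).card : ℝ) := by
    have h1 := card_le_card hsub
    have h2 := card_union_le (univ.filter fun a : Sym2 (Fin n) → Bool =>
      HasSparseKernel (n - n / 2) a) (T.biUnion fun p => evU p.1 p.2.1 p.2.2)
    have h3 : (T.biUnion fun p => evU p.1 p.2.1 p.2.2).card ≤
        ∑ p ∈ T, (evU p.1 p.2.1 p.2.2).card := card_biUnion_le
    have h4 : (univ.filter fun a : Sym2 (Fin n) → Bool =>
        ∃ U ∈ 𝒰, ∃ v ∈ U, v ≠ 0 ∧ ∀ i, ∑ j, symSign a i j * v j = 0).card ≤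
        (univ.filter fun a : Sym2 (Fin n) → Bool => HasSparseKernel (n - n / 2) a).card +
          ∑ p ∈ T, (evU p.1 p.2.1 p.2.2).card := by omega
    exact_mod_cast h4
  have hc : ((Fintype.card (Sym2 (Fin n) → Bool) : ℕ) : ℝ) = N := by
    simp [hN]
  have hsmall : ((univ.filter fun a : Sym2 (Fin n) → Bool =>
      HasSparseKernel (n - n / 2) a).card : ℝ) / N ≤ 3 * (1 / 2 + ε) ^ n := by
    have := hn1 n hn1'
    unfold sparseProb at this
    rw [hc] at this
    exact this
  have hsum : ∑ p ∈ T, ((evU p.1 p.2.1 p.2.2).card : ℝ) / N ≤ (1 / 2 + ε) ^ n := by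
    calc ∑ p ∈ T, ((evU p.1 p.2.1 p.2.2).card : ℝ) / N ≤ ∑ _p ∈ T, (4 / (n : ℝ)) ^ q :=
          sum_le_sum hterm
      _ = (T.card : ℝ) * (4 / (n : ℝ)) ^ q := by simp
      _ ≤ ((𝒰.card : ℕ) : ℝ) * 4 ^ n * (4 / (n : ℝ)) ^ q :=
          mul_le_mul_of_nonneg_right hTcard (by positivity)
      _ ≤ _ := hnum
  unfold familyProb
  rw [hc]
  calc _ ≤ (((univ.filter fun a : Sym2 (Fin n) → Bool =>
          HasSparseKernel (n - n / 2) a).card : ℝ) +
          ∑ p ∈ T, ((evU p.1 p.2.1 p.2.2).card : ℝ)) / N :=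
        div_le_div_of_nonneg_right hcount hN0.le
    _ = ((univ.filter fun a : Sym2 (Fin n) → Bool =>
          HasSparseKernel (n - n / 2) a).card : ℝ) / N +
          ∑ p ∈ T, ((evU p.1 p.2.1 p.2.2).card : ℝ) / N := by
        rw [add_div, Finset.sum_div]
    _ ≤ 3 * (1 / 2 + ε) ^ n + (1 / 2 + ε) ^ n := add_le_add hsmall hsum
    _ = 4 * (1 / 2 + ε) ^ n := by ring

open scoped Classical in
/-- The probability of a nonzero kernel vector with at most `n ^ (1/8)` distinct coordinate values. -/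
noncomputable def fewValuesProb (n : ℕ) : ℝ :=
  ((univ.filter fun a : Sym2 (Fin n) → Bool =>
      ∃ v : Fin n → ℝ, v ≠ 0 ∧ (Set.range v).ncard ^ 8 ≤ n ∧
        ∀ i, ∑ j, symSign a i j * v j = 0).card : ℝ) /
    (Fintype.card (Sym2 (Fin n) → Bool) : ℝ)

/-- A vector with at most `L` distinct values lies in the range of `x ↦ x ∘ π` for some `π`. -/
lemma exists_pattern {n L : ℕ} (v : Fin n → ℝ) (hL : (Set.range v).ncard ≤ L) :
    ∃ π : Fin n → Fin L, v ∈ LinearMap.range (LinearMap.funLeft ℝ ℝ π) := by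
  classical
  have hcard : Nat.card (Set.range v) = (Set.range v).ncard := Nat.card_coe_set_eq _
  have hfin : Finite (Set.range v) := Set.finite_range v
  let e : Set.range v ≃ Fin (Set.range v).ncard := Finite.equivFinOfCardEq hcard
  let π : Fin n → Fin L := fun j => Fin.castLE hL (e ⟨v j, j, rfl⟩)
  let x : Fin L → ℝ := fun c =>
    if h : c.1 < (Set.range v).ncard then ((e.symm ⟨c.1, h⟩ : Set.range v) : ℝ) else 0
  refine ⟨π, x, ?_⟩
  funext j
  show x (π j) = v j
  have hlt : (π j).1 < (Set.range v).ncard := (e ⟨v j, j, rfl⟩).2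
  simp only [x, hlt, dif_pos]
  have : (⟨(π j).1, hlt⟩ : Fin (Set.range v).ncard) = e ⟨v j, j, rfl⟩ := by
    apply Fin.ext
    rfl
  rw [this, Equiv.symm_apply_apply]

/-- **Kernel vectors in few subspaces, and kernel vectors with few values.** For every `ε > 0` there
is `n₀` such that for all `n ≥ n₀`: (1) for every family of at most `n ^ ⌊n/4⌋` linear subspaces of
`ℝⁿ`, each of dimension at most `⌊n/8⌋`, the probability that the random symmetric sign matrix has
a nonzero kernel vector in one of these subspaces is at most `4 (1/2 + ε) ^ n`; (2) the probability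
that it has a nonzero real kernel vector with at most `n ^ (1/8)` distinct coordinate values is at
most `4 (1/2 + ε) ^ n`. -/
theorem result (ε : ℝ) (hε : 0 < ε) :
    ∃ n₀ : ℕ, ∀ n : ℕ, n₀ ≤ n →
      (∀ 𝒰 : Finset (Submodule ℝ (Fin n → ℝ)),
        (∀ U ∈ 𝒰, Module.finrank ℝ U ≤ n / 8) → ((𝒰.card : ℕ) : ℝ) ≤ (n : ℝ) ^ (n / 4) →
        familyProb 𝒰 ≤ 4 * (1 / 2 + ε) ^ n) ∧
      fewValuesProb n ≤ 4 * (1 / 2 + ε) ^ n := by
  classical
  obtain ⟨n1, hn1⟩ := family_bound ε hε
  refine ⟨max n1 16, ?_⟩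
  intro n hn
  have hn1' : n1 ≤ n := le_trans (le_max_left _ _) hn
  have hn16 : 16 ≤ n := le_trans (le_max_right _ _) hn
  refine ⟨hn1 n hn1', ?_⟩
  set L : ℕ := Nat.sqrt (Nat.sqrt (Nat.sqrt n)) with hL
  have hLle : ∀ l : ℕ, l ^ 8 ≤ n → l ≤ L := by
    intro l hl
    rw [hL, Nat.le_sqrt, Nat.le_sqrt, Nat.le_sqrt]
    calc l * l * (l * l) * (l * l * (l * l)) = l ^ 8 := by ring
      _ ≤ n := hl
  have hL8 : L ^ 8 ≤ n := by
    have h1 : L * L ≤ Nat.sqrt (Nat.sqrt n) := Nat.sqrt_le _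
    have h2 : Nat.sqrt (Nat.sqrt n) * Nat.sqrt (Nat.sqrt n) ≤ Nat.sqrt n := Nat.sqrt_le _
    have h3 : Nat.sqrt n * Nat.sqrt n ≤ n := Nat.sqrt_le _
    calc L ^ 8 = (L * L) * (L * L) * ((L * L) * (L * L)) := by ring
      _ ≤ (Nat.sqrt (Nat.sqrt n) * Nat.sqrt (Nat.sqrt n)) *
            (Nat.sqrt (Nat.sqrt n) * Nat.sqrt (Nat.sqrt n)) :=
          Nat.mul_le_mul (Nat.mul_le_mul h1 h1) (Nat.mul_le_mul h1 h1)
      _ ≤ Nat.sqrt n * Nat.sqrt n := Nat.mul_le_mul h2 h2
      _ ≤ n := h3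
  have hL1 : 1 ≤ L := hLle 1 (by omega)
  have hLd : L ≤ n / 8 := by
    rw [Nat.le_div_iff_mul_le (by norm_num)]
    by_cases hcase : L ≤ 1
    · omega
    · have h2 : 2 ≤ L := by omega
      have h7 : 2 ^ 7 ≤ L ^ 7 := Nat.pow_le_pow_left h2 7
      calc L * 8 ≤ L * L ^ 7 := Nat.mul_le_mul_left _ (by omega)
        _ = L ^ 8 := by ring
        _ ≤ n := hL8
  -- the family of subspaces
  let 𝒰 : Finset (Submodule ℝ (Fin n → ℝ)) :=
    (univ : Finset (Fin n → Fin L)).image fun π => LinearMap.range (LinearMap.funLeft ℝ ℝ π)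
  have hdim : ∀ U ∈ 𝒰, Module.finrank ℝ U ≤ n / 8 := by
    intro U hU
    obtain ⟨π, -, rfl⟩ := mem_image.mp hU
    calc _ ≤ Module.finrank ℝ (Fin L → ℝ) := LinearMap.finrank_range_le _
      _ = L := by simp
      _ ≤ n / 8 := hLd
  have hcard : ((𝒰.card : ℕ) : ℝ) ≤ (n : ℝ) ^ (n / 4) := by
    have h1 : 𝒰.card ≤ L ^ n := by
      calc 𝒰.card ≤ (univ : Finset (Fin n → Fin L)).card := card_image_le
        _ = L ^ n := by simp
    have h2 : L ^ n ≤ n ^ (n / 4) := by
      calc L ^ n ≤ L ^ (8 * (n / 8 + 1)) := Nat.pow_le_pow_right hL1 (by omega)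
        _ = (L ^ 8) ^ (n / 8 + 1) := pow_mul _ _ _
        _ ≤ n ^ (n / 8 + 1) := Nat.pow_le_pow_left hL8 _
        _ ≤ n ^ (n / 4) := Nat.pow_le_pow_right (by omega) (by omega)
    exact_mod_cast h1.trans h2
  have hfam' := hn1 n hn1' 𝒰 hdim hcard
  refine le_trans ?_ hfam'
  unfold fewValuesProb familyProb
  apply div_le_div_of_nonneg_right _ (Nat.cast_nonneg _)
  apply Nat.cast_le.mpr
  apply card_le_card
  intro a ha
  obtain ⟨v, hv0, hv8, hker⟩ := (mem_filter.mp ha).2
  obtain ⟨π, hπ⟩ := exists_pattern (L := L) v (hLle _ hv8)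
  exact mem_filter.mpr ⟨mem_univ _, _, mem_image.mpr ⟨π, mem_univ _, rfl⟩, v, hπ, hv0, hker⟩

end Vale.Agent.Results.P160.AFewSubspaces
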