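import Vale.Agent.Results.P160.AAlmostFull
import Vale.Agent.Results.P160.AFewSubspaces

open Vale.Agent.Results.P160.SparseKernel Vale.Agent.Results.P160.ASparseHalf
  Vale.Agent.Results.P160.AFewSubspaces

/-- Conjunction of the two complementary bounds at the conjectured rate `1/2` for the singularity
of random symmetric sign matrices: kernel vectors with a positive proportion of zero coordinates,
kernel vectors in a small family of subspaces, and kernel vectors with few distinct values. -/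
theorem Vale.Agent.Results.P160.A0Conj.result :
    (∀ (ε : ℝ) (_ : 0 < ε) (E : ℕ) (_ : 0 < E),
      ∃ n₀ : ℕ, ∀ n : ℕ, n₀ ≤ n → sparseProb n (n - n / E) ≤ 3 * (1 / 2 + ε) ^ n) ∧
    (∀ (ε : ℝ) (_ : 0 < ε),
      ∃ n₀ : ℕ, ∀ n : ℕ, n₀ ≤ n →
        (∀ 𝒰 : Finset (Submodule ℝ (Fin n → ℝ)),
          (∀ U ∈ 𝒰, Module.finrank ℝ U ≤ n / 8) → ((𝒰.card : ℕ) : ℝ) ≤ (n : ℝ) ^ (n / 4) →
          familyProb 𝒰 ≤ 4 * (1 / 2 + ε) ^ n) ∧
        fewValuesProb n ≤ 4 * (1 / 2 + ε) ^ n) :=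
  ⟨Vale.Agent.Results.P160.AAlmostFull.result, Vale.Agent.Results.P160.AFewSubspaces.result⟩
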