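import Vale.Agent.Results.P160.ASparseHalf

open Finset

namespace Vale.Agent.Results.P160.AAlmostFull

open Vale.Agent.Results.P160.SparseKernel Vale.Agent.Results.P160.ASparseHalf

open scoped Classical in
/-- The rows of `S` restricted to `S` all lie in the span of the rows of `R`. -/
noncomputable def evC {n : ℕ} (S R : Finset (Fin n)) : Finset (Sym2 (Fin n) → Bool) :=
  univ.filter fun a => ∀ i ∈ S, rowS a S i ∈ Submodule.span ℝ ((rowS a S) '' (R : Set (Fin n)))

lemma symSign_comm {n : ℕ} (a : Sym2 (Fin n) → Bool) (i j : Fin n) :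
    symSign a i j = symSign a j i := by
  unfold symSign
  rw [Sym2.eq_swap]

/-- In a symmetric matrix, a vector of the row space spanned by `R` that vanishes on `R` is zero. -/
lemma eq_zero_of_mem_span {n : ℕ} {a : Sym2 (Fin n) → Bool} {S R : Finset (Fin n)} (hR : R ⊆ S)
    (ha : a ∈ evC S R) (d : S → ℝ)
    (hd : d ∈ Submodule.span ℝ ((rowS a S) '' (R : Set (Fin n))))
    (hd0 : ∀ r (hr : r ∈ R), d ⟨r, hR hr⟩ = 0) : d = 0 := by
  classical
  have hrows := (mem_filter.mp ha).2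
  rw [Set.image_eq_range] at hd
  obtain ⟨y, hy⟩ := (Submodule.mem_span_range_iff_exists_fun ℝ).1 hd
  let ψ : (S → ℝ) →ₗ[ℝ] ℝ :=
    { toFun := fun u => ∑ r : ((R : Set (Fin n)) : Type), y r * u ⟨r.1, hR (mem_coe.1 r.2)⟩
      map_add' := by
        intro x w
        simp only [Pi.add_apply, mul_add, Finset.sum_add_distrib]
      map_smul' := by
        intro c x
        simp only [Pi.smul_apply, smul_eq_mul, RingHom.id_apply, Finset.mul_sum]
        refine Finset.sum_congr rfl fun r _ => ?_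
        ring }
  have hψd : ∀ i : S, ψ (rowS a S i.1) = d i := by
    intro i
    show ∑ r : ((R : Set (Fin n)) : Type), y r * rowS a S i.1 ⟨r.1, hR (mem_coe.1 r.2)⟩ = d i
    rw [← hy]
    simp only [Finset.sum_apply, Pi.smul_apply, smul_eq_mul]
    refine Finset.sum_congr rfl fun r _ => ?_
    congr 1
    exact symSign_comm a _ _
  have hsub : Submodule.span ℝ ((rowS a S) '' (R : Set (Fin n))) ≤ LinearMap.ker ψ := by
    rw [Submodule.span_le]
    rintro _ ⟨r, hr, rfl⟩
    show ψ (rowS a S r) = 0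
    have := hψd ⟨r, hR (mem_coe.1 hr)⟩
    rw [this]
    exact hd0 r (mem_coe.1 hr)
  funext i
  have h1 : ψ (rowS a S i.1) = 0 := hsub (hrows i.1 i.2)
  rw [← hψd i, h1]
  rfl

/-- The corank count: `|S \ R|` large forces many determined entries. -/
lemma evC_card {n : ℕ} (S R : Finset (Fin n)) (hR : R ⊆ S) :
    (evC S R).card * 2 ^ ((S \ R).sym2.card) ≤ 2 ^ Fintype.card (Sym2 (Fin n)) := by
  classical
  refine card_mul_two_pow_le (evC S R) ((S \ R).sym2) ?_
  intro a ha b hb hagree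
  have hrowsa := (mem_filter.mp ha).2
  have hrowsb := (mem_filter.mp hb).2
  have hRnot : ∀ r ∈ R, ∀ j, s(r, j) ∉ (S \ R).sym2 := by
    intro r hr j h
    have := (Finset.mk_mem_sym2_iff.mp h).1
    exact (mem_sdiff.mp this).2 hr
  have hRnot' : ∀ r ∈ R, ∀ j, s(j, r) ∉ (S \ R).sym2 := by
    intro r hr j h
    have := (Finset.mk_mem_sym2_iff.mp h).2
    exact (mem_sdiff.mp this).2 hr
  have hRrows : ∀ r ∈ R, rowS b S r = rowS a S r := by
    intro r hr
    funext j
    exact symSign_eq_iff.2 (hagree _ (hRnot r hr j)).symm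
  have himg : (rowS b S) '' (R : Set (Fin n)) = (rowS a S) '' (R : Set (Fin n)) :=
    Set.image_congr fun r hr => hRrows r (mem_coe.1 hr)
  funext x
  by_cases hx : x ∈ (S \ R).sym2
  · induction x with
    | _ i j =>
      obtain ⟨hi, hj⟩ := Finset.mk_mem_sym2_iff.mp hx
      have hiS : i ∈ S := (mem_sdiff.mp hi).1
      have hjS : j ∈ S := (mem_sdiff.mp hj).1
      have hd := eq_zero_of_mem_span hR ha (rowS a S i - rowS b S i)
        (Submodule.sub_mem _ (hrowsa i hiS) (by rw [← himg]; exact hrowsb i hiS))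
        (by
          intro r hr
          have : rowS a S i ⟨r, hR hr⟩ = rowS b S i ⟨r, hR hr⟩ :=
            symSign_eq_iff.2 (hagree _ (hRnot' r hr i))
          simp [this])
      have := congrFun hd ⟨j, hjS⟩
      simp only [Pi.sub_apply, Pi.zero_apply] at this
      exact symSign_eq_iff.1 (sub_eq_zero.mp this)
  · exact hagree x hx

/-- Rank bookkeeping: a spanning set `R0 ⊆ S` for the rows of `S`, and few further rows `R1`. -/
lemma exists_R0_R1 {n : ℕ} (a : Sym2 (Fin n) → Bool) (S : Finset (Fin n)) (hS : S.Nonempty) :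
    ∃ R0 R1 : Finset (Fin n), R0 ⊆ S ∧ R0.card + R1.card ≤ S.card ∧
      (∀ i ∈ S, rowS a S i ∈ Submodule.span ℝ ((rowS a S) '' (R0 : Set (Fin n)))) ∧
      (∀ i, rowS a S i ∈ Submodule.span ℝ ((rowS a S) '' ((S ∪ R1 : Finset (Fin n)) : Set (Fin n)))) := by
  classical
  obtain ⟨j0, _⟩ := hS
  haveI : Nonempty (Fin n) := ⟨j0⟩
  set t0 : Set (S → ℝ) := (rowS a S) '' (S : Set (Fin n)) with ht0
  obtain ⟨b0, hb0t, hb0span, hb0ind⟩ := exists_linearIndependent ℝ t0
  have hb0ind' : LinearIndepOn ℝ id b0 := hb0ind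
  set t : Set (S → ℝ) := Set.range (rowS a S) with ht
  have hb0t' : b0 ⊆ t := by
    intro u hu
    obtain ⟨i, _, rfl⟩ := hb0t hu
    exact ⟨i, rfl⟩
  obtain ⟨b, hbt, hb0b, htb, hbind⟩ := exists_linearIndepOn_id_extension hb0ind' hb0t'
  have hbind' : LinearIndependent ℝ (fun x : b => (x : S → ℝ)) := hbind
  have hbfin : b.Finite := hbind'.setFinite
  have hb0fin : b0.Finite := hbfin.subset hb0b
  let B : Finset (S → ℝ) := hbfin.toFinset
  let B0 : Finset (S → ℝ) := hb0fin.toFinset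
  have hB0B : B0 ⊆ B := by
    intro u hu
    simp only [B, B0, Set.Finite.mem_toFinset] at hu ⊢
    exact hb0b hu
  have hBcard : B.card ≤ S.card := by
    haveI := hbfin.fintype
    have h1 := hbind'.fintype_card_le_finrank
    have h2 : B.card = Fintype.card b := hbfin.card_toFinset
    have h3 : Module.finrank ℝ (S → ℝ) = S.card := by simp
    omega
  let i0 : (S → ℝ) → Fin n := Function.invFunOn (rowS a S) (S : Set (Fin n))
  let i1 : (S → ℝ) → Fin n := Function.invFunOn (rowS a S) Set.univ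
  have hi0 : ∀ u ∈ b0, i0 u ∈ S ∧ rowS a S (i0 u) = u := by
    intro u hu
    have hex : ∃ i ∈ (S : Set (Fin n)), rowS a S i = u := by
      obtain ⟨i, hi, rfl⟩ := hb0t hu
      exact ⟨i, hi, rfl⟩
    exact ⟨mem_coe.1 (Function.invFunOn_mem hex), Function.invFunOn_eq hex⟩
  have hi1 : ∀ u ∈ b, rowS a S (i1 u) = u := by
    intro u hu
    have hex : ∃ i ∈ (Set.univ : Set (Fin n)), rowS a S i = u := by
      obtain ⟨i, rfl⟩ := hbt hu
      exact ⟨i, Set.mem_univ _, rfl⟩
    exact Function.invFunOn_eq hex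
  refine ⟨B0.image i0, (B \ B0).image i1, ?_, ?_, ?_, ?_⟩
  · intro i hi
    obtain ⟨u, hu, rfl⟩ := mem_image.mp hi
    exact (hi0 u (by simpa [B0] using hu)).1
  · have h1 : (B0.image i0).card ≤ B0.card := card_image_le
    have h2 : ((B \ B0).image i1).card ≤ (B \ B0).card := card_image_le
    have h3 : (B \ B0).card = B.card - B0.card := card_sdiff_of_subset hB0B
    have h4 : B0.card ≤ B.card := card_le_card hB0B
    omega
  · intro i hi
    have h1 : rowS a S i ∈ Submodule.span ℝ b0 := by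
      rw [hb0span]
      exact Submodule.subset_span ⟨i, mem_coe.2 hi, rfl⟩
    refine Submodule.span_mono ?_ h1
    intro u hu
    refine ⟨i0 u, ?_, (hi0 u hu).2⟩
    exact mem_coe.2 (mem_image.mpr ⟨u, by simpa [B0] using hu, rfl⟩)
  · intro i
    have h1 : rowS a S i ∈ Submodule.span ℝ b := htb ⟨i, rfl⟩
    refine Submodule.span_mono ?_ h1
    intro u hu
    by_cases hu0 : u ∈ b0
    · obtain ⟨hS', he⟩ := hi0 u hu0
      exact ⟨i0 u, mem_coe.2 (mem_union_left _ hS'), he⟩
    · refine ⟨i1 u, ?_, hi1 u hu⟩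
      refine mem_coe.2 (mem_union_right _ (mem_image.mpr ⟨u, ?_, rfl⟩))
      simp only [B, B0, mem_sdiff, Set.Finite.mem_toFinset]
      exact ⟨hu, hu0⟩

/-- **Kernel vectors with many zero coordinates.** For every `ε > 0` and every integer `E ≥ 1` there is
`n₀` such that for all `n ≥ n₀` the probability that the random symmetric `n × n` sign matrix has a
nonzero real kernel vector with at most `n - ⌊n / E⌋` nonzero coordinates (so with at least `⌊n / E⌋`
zero coordinates) is at most `3 (1/2 + ε) ^ n`. -/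
theorem result (ε : ℝ) (hε : 0 < ε) (E : ℕ) (hE : 0 < E) :
    ∃ n₀ : ℕ, ∀ n : ℕ, n₀ ≤ n → sparseProb n (n - n / E) ≤ 3 * (1 / 2 + ε) ^ n := by
  classical
  obtain ⟨D, hD, hsmall⟩ := SparseKernel.result.2 ε hε
  set γ : ℝ := (1 / 64 : ℝ) ^ (8 * E) with hγ
  have hγ0 : 0 < γ := by positivity
  refine ⟨max (max (8 * E) (96 * E * E)) (⌈(D : ℝ) / γ⌉₊ + 1), ?_⟩
  intro n hn
  have hn0 : max (8 * E) (96 * E * E) ≤ n := le_trans (le_max_left _ _) hn
  have hn1 : 8 * E ≤ n := le_trans (le_max_left _ _) hn0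
  have hn3 : 96 * E * E ≤ n := le_trans (le_max_right _ _) hn0
  have hn2 : ⌈(D : ℝ) / γ⌉₊ + 1 ≤ n := le_trans (le_max_right _ _) hn
  have hnpos : 0 < n := by omega
  have hnR : (0 : ℝ) < n := by exact_mod_cast hnpos
  have hDn : (D : ℝ) / n ≤ γ := by
    have h1 : (D : ℝ) / γ ≤ ⌈(D : ℝ) / γ⌉₊ := Nat.le_ceil _
    have h2 : ((⌈(D : ℝ) / γ⌉₊ : ℕ) : ℝ) ≤ n := by
      have : ⌈(D : ℝ) / γ⌉₊ ≤ n := by omega
      exact_mod_cast this
    have h3 : (D : ℝ) / γ ≤ n := h1.trans h2
    rw [div_le_iff₀ hγ0] at h3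
    rw [div_le_iff₀ hnR]
    linarith
  set m := n / E with hm
  set q := n / (4 * E) with hq
  set k := n - m with hk
  set k0 := n / D with hk0
  have hmn : m ≤ n := Nat.div_le_self _ _
  have hE4 : 0 < 4 * E := by omega
  have hq4 : 4 * q ≤ m := by
    rw [hm, Nat.le_div_iff_mul_le hE]
    have : q * (4 * E) ≤ n := Nat.div_mul_le_self _ _
    calc 4 * q * E = q * (4 * E) := by ring
      _ ≤ n := this
  have hq8 : n ≤ (8 * E) * q := by
    have h1 := Nat.div_add_mod n (4 * E)
    have h2 := Nat.mod_lt n hE4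
    have h3 : (8 * E) * q = 2 * ((4 * E) * q) := by ring
    rw [h3]
    rw [← hq] at h1
    omega
  have hq24 : 24 * E ≤ q := by
    rw [hq, Nat.le_div_iff_mul_le hE4]
    calc 24 * E * (4 * E) = 96 * E * E := by ring
      _ ≤ n := hn3
  -- the families of pairs
  set P : Finset (Finset (Fin n)) := univ with hP
  set T1 : Finset (Finset (Fin n) × Finset (Fin n)) :=
    (P ×ˢ P).filter fun p => k0 < p.1.card ∧ 2 * q ≤ (univ \ (p.2 ∪ p.1)).card with hT1
  set T2 : Finset (Finset (Fin n) × Finset (Fin n)) :=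
    (P ×ˢ P).filter fun p => p.2 ⊆ p.1 ∧ 2 * q ≤ (p.1 \ p.2).card with hT2
  have hsub : (univ.filter fun a : Sym2 (Fin n) → Bool => HasSparseKernel k a) ⊆
      ((univ.filter fun a : Sym2 (Fin n) → Bool => HasSparseKernel k0 a) ∪
        T1.biUnion fun p => evB p.1 p.2) ∪ T2.biUnion fun p => evC p.1 p.2 := by
    intro a ha
    obtain ⟨v, hv0, hcard, hker⟩ := (mem_filter.mp ha).2
    set S : Finset (Fin n) := univ.filter fun j => v j ≠ 0 with hS
    have hSmem : ∀ j, v j ≠ 0 ↔ j ∈ S := by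
      intro j; simp [hS]
    have hne : S.Nonempty := by
      by_contra hemp
      rw [not_nonempty_iff_eq_empty] at hemp
      apply hv0
      funext j
      by_contra hj
      have := (hSmem j).1 hj
      rw [hemp] at this
      simp at this
    by_cases hcase : S.card ≤ k0
    · refine mem_union_left _ (mem_union_left _ ?_)
      exact mem_filter.mpr ⟨mem_univ _, v, hv0, hcase, hker⟩
    · obtain ⟨R0, R1, hR0, hcards, hspan0, hspan1⟩ := exists_R0_R1 a S hne
      by_cases hcase2 : R1.card ≤ m - 2 * q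
      · refine mem_union_left _ (mem_union_right _ ?_)
        refine mem_biUnion.mpr ⟨(S, S ∪ R1), ?_, ?_⟩
        · simp only [hT1, hP, mem_filter, mem_product, mem_univ, and_self, true_and]
          refine ⟨by omega, ?_⟩
          have h2 : (univ \ ((S ∪ R1) ∪ S)).card = n - ((S ∪ R1) ∪ S).card := by
            rw [card_sdiff_of_subset (subset_univ _)]
            simp
          have h3 : (S ∪ R1) ∪ S = S ∪ R1 := by
            ext x; simp only [mem_union]; tauto
          have h4 : (S ∪ R1).card ≤ S.card + R1.card := card_union_le _ _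
          rw [h2, h3]
          omega
        · exact mem_filter.mpr ⟨mem_univ _, ⟨v, hSmem, hker⟩, hspan1⟩
      · refine mem_union_right _ ?_
        refine mem_biUnion.mpr ⟨(S, R0), ?_, ?_⟩
        · simp only [hT2, hP, mem_filter, mem_product, mem_univ, and_self, true_and]
          refine ⟨hR0, ?_⟩
          rw [card_sdiff_of_subset hR0]
          omega
        · exact mem_filter.mpr ⟨mem_univ _, hspan0⟩
  -- density of the first family
  have hterm1 : ∀ p ∈ T1, ((evB p.1 p.2).card : ℝ) / 2 ^ Fintype.card (Sym2 (Fin n)) ≤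
      (1 / 64 : ℝ) ^ n := by
    rintro ⟨S, R⟩ hp
    simp only [hT1, hP, mem_filter, mem_product, mem_univ, and_self, true_and] at hp
    obtain ⟨hS0, hI⟩ := hp
    refine (evB_density S R).trans ?_
    set κ : ℝ := ((S.card.choose (S.card / 2) : ℕ) : ℝ) / 2 ^ S.card with hκ
    have hκ0 : 0 ≤ κ := by positivity
    have hwallis : κ ^ 2 * ((S.card : ℝ) + 1) ≤ 1 := by
      have h := choose_half_sq_le S.card
      have h' : ((S.card.choose (S.card / 2) : ℕ) : ℝ) ^ 2 * ((S.card : ℝ) + 1) ≤ 4 ^ S.card := by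
        exact_mod_cast h
      have h4 : ((2 : ℝ) ^ S.card) ^ 2 = 4 ^ S.card := by
        rw [← pow_mul, mul_comm, pow_mul]; norm_num
      rw [hκ, div_pow, h4, div_mul_eq_mul_div, div_le_one (by positivity)]
      exact h'
    have hκ2 : κ ^ 2 ≤ (D : ℝ) / n := by
      have hlt : n < D * (n / D + 1) := Nat.lt_mul_div_succ n hD
      have hle : n ≤ D * (S.card + 1) := by
        have : D * (n / D + 1) ≤ D * (S.card + 1) := Nat.mul_le_mul_left _ (by omega)
        omega
      have hle' : (n : ℝ) ≤ D * ((S.card : ℝ) + 1) := by exact_mod_cast hle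
      rw [le_div_iff₀ hnR]
      have hκsq : 0 ≤ κ ^ 2 := by positivity
      have hD0 : (0 : ℝ) ≤ D := Nat.cast_nonneg _
      nlinarith
    have hκ2γ : κ ^ 2 ≤ γ := hκ2.trans hDn
    have hκ1 : κ ≤ 1 := by
      have hs : (0 : ℝ) ≤ S.card := Nat.cast_nonneg _
      have : κ ^ 2 ≤ 1 := by nlinarith [sq_nonneg κ]
      nlinarith [sq_nonneg (κ - 1)]
    calc κ ^ (univ \ (R ∪ S)).card ≤ κ ^ (2 * q) := pow_le_pow_of_le_one hκ0 hκ1 hI
      _ = (κ ^ 2) ^ q := pow_mul _ _ _
      _ ≤ γ ^ q := pow_le_pow_left₀ (by positivity) hκ2γ q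
      _ = (1 / 64 : ℝ) ^ ((8 * E) * q) := by rw [hγ, ← pow_mul]
      _ ≤ (1 / 64 : ℝ) ^ n := pow_le_pow_of_le_one (by norm_num) (by norm_num) hq8
  -- density of the second family
  have hterm2 : ∀ p ∈ T2, ((evC p.1 p.2).card : ℝ) / 2 ^ Fintype.card (Sym2 (Fin n)) ≤
      (1 / 64 : ℝ) ^ n := by
    rintro ⟨S, R⟩ hp
    simp only [hT2, hP, mem_filter, mem_product, mem_univ, and_self, true_and] at hp
    obtain ⟨hR, hJ⟩ := hp
    have h1 := evC_card S R hR
    have hQ : 6 * n ≤ (S \ R).sym2.card := by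
      rw [Finset.card_sym2, Nat.choose_two_right]
      set x := (S \ R).card with hx
      rw [Nat.le_div_iff_mul_le (by norm_num)]
      have hx2 : (2 * q) * (2 * q) ≤ (x + 1) * (x + 1 - 1) := by
        have : x + 1 - 1 = x := by omega
        rw [this]
        exact Nat.mul_le_mul (by omega) hJ
      have h12 : 6 * n * 2 ≤ (2 * q) * (2 * q) := by
        have h5 : 6 * n * 2 ≤ 12 * ((8 * E) * q) := by omega
        have h6 : 12 * ((8 * E) * q) = 4 * q * (24 * E) := by ring
        have h7 : 4 * q * (24 * E) ≤ 4 * q * q := Nat.mul_le_mul_left _ hq24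
        have h8 : (2 * q) * (2 * q) = 4 * q * q := by ring
        omega
      omega
    have h2 : (evC S R).card * 2 ^ (6 * n) ≤ 2 ^ Fintype.card (Sym2 (Fin n)) :=
      le_trans (Nat.mul_le_mul_left _ (Nat.pow_le_pow_right (by norm_num) hQ)) h1
    have h2' : ((evC S R).card : ℝ) * 2 ^ (6 * n) ≤ 2 ^ Fintype.card (Sym2 (Fin n)) := by
      exact_mod_cast h2
    have h64 : (1 / 64 : ℝ) ^ n = 1 / 2 ^ (6 * n) := by
      rw [pow_mul, div_pow, one_pow]
      norm_num
    rw [h64, div_le_div_iff₀ (by positivity) (by positivity), one_mul]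
    exact h2'
  have hcardT : ∀ T : Finset (Finset (Fin n) × Finset (Fin n)), T ⊆ P ×ˢ P →
      ((T.card : ℕ) : ℝ) ≤ 4 ^ n := by
    intro T hT
    have h1 : T.card ≤ (P ×ˢ P).card := card_le_card hT
    have h2 : (P ×ˢ P).card = 2 ^ n * 2 ^ n := by
      rw [card_product, hP, card_univ]
      simp
    have h3 : T.card ≤ 4 ^ n := by
      rw [h2] at h1
      calc T.card ≤ 2 ^ n * 2 ^ n := h1
        _ = 4 ^ n := by rw [← mul_pow]; norm_num
    exact_mod_cast h3
  set N : ℝ := 2 ^ Fintype.card (Sym2 (Fin n)) with hN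
  have hN0 : 0 < N := by positivity
  have hcount : ((univ.filter fun a : Sym2 (Fin n) → Bool => HasSparseKernel k a).card : ℝ) ≤
      ((univ.filter fun a : Sym2 (Fin n) → Bool => HasSparseKernel k0 a).card : ℝ) +
        ∑ p ∈ T1, ((evB p.1 p.2).card : ℝ) + ∑ p ∈ T2, ((evC p.1 p.2).card : ℝ) := by
    have h1 := card_le_card hsub
    have h2 := card_union_le ((univ.filter fun a : Sym2 (Fin n) → Bool => HasSparseKernel k0 a) ∪
        T1.biUnion fun p => evB p.1 p.2) (T2.biUnion fun p => evC p.1 p.2)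
    have h2' := card_union_le (univ.filter fun a : Sym2 (Fin n) → Bool => HasSparseKernel k0 a)
      (T1.biUnion fun p => evB p.1 p.2)
    have h3 : (T1.biUnion fun p => evB p.1 p.2).card ≤ ∑ p ∈ T1, (evB p.1 p.2).card :=
      card_biUnion_le
    have h3' : (T2.biUnion fun p => evC p.1 p.2).card ≤ ∑ p ∈ T2, (evC p.1 p.2).card :=
      card_biUnion_le
    have h4 : (univ.filter fun a : Sym2 (Fin n) → Bool => HasSparseKernel k a).card ≤
        (univ.filter fun a : Sym2 (Fin n) → Bool => HasSparseKernel k0 a).card +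
          ∑ p ∈ T1, (evB p.1 p.2).card + ∑ p ∈ T2, (evC p.1 p.2).card := by omega
    exact_mod_cast h4
  have hprob : ∀ l : ℕ, sparseProb n l =
      ((univ.filter fun a : Sym2 (Fin n) → Bool => HasSparseKernel l a).card : ℝ) / N := by
    intro l
    unfold sparseProb
    have hc : ((Fintype.card (Sym2 (Fin n) → Bool) : ℕ) : ℝ) = N := by
      simp [hN]
    rw [hc]
  have hsum1 : ∑ p ∈ T1, ((evB p.1 p.2).card : ℝ) / N ≤ (1 / 16 : ℝ) ^ n := by
    calc ∑ p ∈ T1, ((evB p.1 p.2).card : ℝ) / N ≤ ∑ _p ∈ T1, (1 / 64 : ℝ) ^ n :=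
          sum_le_sum hterm1
      _ = (T1.card : ℝ) * (1 / 64 : ℝ) ^ n := by simp
      _ ≤ 4 ^ n * (1 / 64 : ℝ) ^ n :=
          mul_le_mul_of_nonneg_right (hcardT T1 (filter_subset _ _)) (by positivity)
      _ = (1 / 16 : ℝ) ^ n := by
          rw [← mul_pow]; norm_num
  have hsum2 : ∑ p ∈ T2, ((evC p.1 p.2).card : ℝ) / N ≤ (1 / 16 : ℝ) ^ n := by
    calc ∑ p ∈ T2, ((evC p.1 p.2).card : ℝ) / N ≤ ∑ _p ∈ T2, (1 / 64 : ℝ) ^ n :=
          sum_le_sum hterm2
      _ = (T2.card : ℝ) * (1 / 64 : ℝ) ^ n := by simp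
      _ ≤ 4 ^ n * (1 / 64 : ℝ) ^ n :=
          mul_le_mul_of_nonneg_right (hcardT T2 (filter_subset _ _)) (by positivity)
      _ = (1 / 16 : ℝ) ^ n := by
          rw [← mul_pow]; norm_num
  have h16 : (1 / 16 : ℝ) ^ n ≤ (1 / 2 + ε) ^ n :=
    pow_le_pow_left₀ (by norm_num) (by linarith) n
  calc sparseProb n k
      = ((univ.filter fun a : Sym2 (Fin n) → Bool => HasSparseKernel k a).card : ℝ) / N := hprob k
    _ ≤ (((univ.filter fun a : Sym2 (Fin n) → Bool => HasSparseKernel k0 a).card : ℝ) +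
          ∑ p ∈ T1, ((evB p.1 p.2).card : ℝ) + ∑ p ∈ T2, ((evC p.1 p.2).card : ℝ)) / N :=
        div_le_div_of_nonneg_right hcount hN0.le
    _ = sparseProb n k0 + ∑ p ∈ T1, ((evB p.1 p.2).card : ℝ) / N +
          ∑ p ∈ T2, ((evC p.1 p.2).card : ℝ) / N := by
        rw [add_div, add_div, hprob k0, Finset.sum_div, Finset.sum_div]
    _ ≤ (1 / 2 + ε) ^ n + (1 / 2 + ε) ^ n + (1 / 2 + ε) ^ n :=
        add_le_add (add_le_add (hsmall n) (hsum1.trans h16)) (hsum2.trans h16)
    _ = 3 * (1 / 2 + ε) ^ n := by ring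

end Vale.Agent.Results.P160.AAlmostFull
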