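import Vale.Agent.Results.P160.SparseKernel

open Finset

namespace Vale.Agent.Results.P160.ASparseHalf

open Vale.Agent.Results.P160.SparseKernel

/-- Erdős–Littlewood–Offord for nonzero coefficients: at most `C(s, ⌊s/2⌋)` sign patterns on `S`
give sum zero. -/
lemma littlewood_offord {n : ℕ} (S : Finset (Fin n)) (v : Fin n → ℝ) (hv : ∀ j ∈ S, v j ≠ 0) :
    (univ.filter fun σ : S → Bool => ∑ j : S, (if σ j then (1 : ℝ) else -1) * v j = 0).card ≤
      S.card.choose (S.card / 2) := by
  classical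
  set Sol := (univ.filter fun σ : S → Bool => ∑ j : S, (if σ j then (1 : ℝ) else -1) * v j = 0)
    with hSol
  -- the set of coordinates where the signed term is positive
  let A : (S → Bool) → Finset S := fun σ =>
    univ.filter fun j => (σ j = true ∧ 0 < v j) ∨ (σ j = false ∧ v j < 0)
  have hterm : ∀ (σ : S → Bool) (j : S),
      (if σ j then (1 : ℝ) else -1) * v j = if j ∈ A σ then |v j| else -|v j| := by
    intro σ j
    have hvj : v j ≠ 0 := hv j j.2
    rcases lt_or_gt_of_ne hvj with hneg | hpos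
    · by_cases hσ : σ j = true
      · simp [A, hσ, hneg, abs_of_neg hneg, not_lt.mpr hneg.le]
      · have hσ' : σ j = false := by simpa using hσ
        simp [A, hσ', hneg, abs_of_neg hneg]
    · by_cases hσ : σ j = true
      · simp [A, hσ, hpos, abs_of_pos hpos]
      · have hσ' : σ j = false := by simpa using hσ
        simp [A, hσ', hpos, abs_of_pos hpos, not_lt.mpr hpos.le]
  have hinj : Set.InjOn A (Sol : Set (S → Bool)) := by
    intro σ _ τ _ h
    funext j
    have hvj : v j ≠ 0 := hv j j.2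
    have h1 : j ∈ A σ ↔ j ∈ A τ := by rw [h]
    simp only [A, mem_filter, mem_univ, true_and] at h1
    rcases lt_or_gt_of_ne hvj with hneg | hpos
    · cases hσ : σ j <;> cases hτ : τ j <;> simp_all [not_lt.mpr hneg.le]
    · cases hσ : σ j <;> cases hτ : τ j <;> simp_all [not_lt.mpr hpos.le]
  have hanti : IsAntichain (· ⊆ ·) ((Sol.image A : Finset (Finset S)) : Set (Finset S)) := by
    intro B hB C hC hne hsub
    obtain ⟨σ, hσ, rfl⟩ := mem_image.mp (mem_coe.mp hB)
    obtain ⟨τ, hτ, rfl⟩ := mem_image.mp (mem_coe.mp hC)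
    have h0σ := (mem_filter.mp hσ).2
    have h0τ := (mem_filter.mp hτ).2
    obtain ⟨j0, hj0τ, hj0σ⟩ : ∃ j, j ∈ A τ ∧ j ∉ A σ := by
      by_contra hcon
      push Not at hcon
      exact hne (Subset.antisymm hsub hcon)
    have hlt : ∑ j : S, (if j ∈ A σ then |v j| else -|v j|) <
        ∑ j : S, (if j ∈ A τ then |v j| else -|v j|) := by
      refine Finset.sum_lt_sum ?_ ⟨j0, mem_univ _, ?_⟩
      · intro j _
        by_cases h1 : j ∈ A σ
        · have h2 : j ∈ A τ := hsub h1
          simp [h1, h2]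
        · by_cases h2 : j ∈ A τ
          · simp only [h1, h2, if_false, if_true]
            have := abs_nonneg (v j)
            linarith
          · simp [h1, h2]
      · have hp : 0 < |v j0| := abs_pos.mpr (hv j0 j0.2)
        simp only [hj0σ, hj0τ, if_false, if_true]
        linarith
    have e1 : ∑ j : S, (if j ∈ A σ then |v j| else -|v j|) = 0 := by
      rw [← h0σ]
      exact Finset.sum_congr rfl fun j _ => (hterm σ j).symm
    have e2 : ∑ j : S, (if j ∈ A τ then |v j| else -|v j|) = 0 := by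
      rw [← h0τ]
      exact Finset.sum_congr rfl fun j _ => (hterm τ j).symm
    rw [e1, e2] at hlt
    exact lt_irrefl _ hlt
  have hsp := hanti.sperner
  rw [card_image_of_injOn hinj] at hsp
  simpa using hsp

/-- The key count with the Littlewood–Offord factor. -/
lemma evB_card_LO {n : ℕ} (S R : Finset (Fin n)) :
    (evB S R).card * 2 ^ (S.card * (univ \ (R ∪ S)).card) ≤
      2 ^ Fintype.card (Sym2 (Fin n)) * (S.card.choose (S.card / 2)) ^ (univ \ (R ∪ S)).card := by
  classical
  set I : Finset (Fin n) := univ \ (R ∪ S) with hI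
  have hImem : ∀ i, i ∈ I ↔ i ∉ R ∧ i ∉ S := by
    intro i
    simp [hI]
  -- the pairs between `I` and `S`
  set PI : Finset (Sym2 (Fin n)) := (I ×ˢ S).image (fun p => s(p.1, p.2)) with hPI
  have hPIcard : PI.card = S.card * I.card := by
    rw [hPI, card_image_of_injOn, card_product, mul_comm]
    rintro ⟨i, j⟩ hp ⟨i2, j2⟩ hp2 h
    simp only [coe_product, Set.mem_prod, mem_coe] at hp hp2
    simp only [Sym2.eq_iff] at h
    rcases h with ⟨h1, h2⟩ | ⟨h1, _⟩
    · rw [h1, h2]
    · exact absurd (h1 ▸ hp2.2) ((hImem i).1 hp.1).2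
  -- restriction off `PI`
  let res : (Sym2 (Fin n) → Bool) → ({x // x ∉ PI} → Bool) := fun a x => a x.1
  have himg : ((evB S R).image res).card ≤ 2 ^ (Fintype.card (Sym2 (Fin n)) - PI.card) := by
    calc ((evB S R).image res).card ≤ (univ : Finset ({x // x ∉ PI} → Bool)).card :=
          card_le_card (subset_univ _)
      _ = 2 ^ Fintype.card {x // x ∉ PI} := by
          rw [card_univ]; simp
      _ = 2 ^ (Fintype.card (Sym2 (Fin n)) - PI.card) := by
          congr 1
          rw [Fintype.card_subtype_compl]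
          simp
  have hfib : ∀ c ∈ (evB S R).image res,
      ((evB S R).filter fun a => res a = c).card ≤ (S.card.choose (S.card / 2)) ^ I.card := by
    intro c hc
    obtain ⟨a0, ha0, rfl⟩ := mem_image.mp hc
    obtain ⟨⟨v, hv, hker⟩, -⟩ := (mem_filter.mp ha0).2
    set Sol := (univ.filter fun σ : S → Bool =>
      ∑ j : S, (if σ j then (1 : ℝ) else -1) * v j = 0) with hSol
    have hSolcard : Sol.card ≤ S.card.choose (S.card / 2) :=
      littlewood_offord S v (fun j hj => (hv j).2 hj)
    -- functional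
    let ℓ : (S → ℝ) →ₗ[ℝ] ℝ :=
      { toFun := fun u => ∑ j : S, u j * v j
        map_add' := by
          intro x y
          simp only [Pi.add_apply, add_mul, Finset.sum_add_distrib]
        map_smul' := by
          intro c x
          simp only [Pi.smul_apply, smul_eq_mul, RingHom.id_apply, Finset.mul_sum, mul_assoc] }
    have hℓa0 : ∀ i, ℓ (rowS a0 S i) = 0 := by
      intro i
      show ∑ j : S, rowS a0 S i j * v j = 0
      rw [sum_rowS a0 S v hv i, hker i]
    let φ : (Sym2 (Fin n) → Bool) → (I → S → Bool) := fun a i j => a s(i.1, j.1)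
    have hmaps : ∀ a ∈ ((evB S R).filter fun a => res a = res a0),
        φ a ∈ Fintype.piFinset (fun _ : I => Sol) := by
      intro a ha
      obtain ⟨haB, hres⟩ := mem_filter.mp ha
      obtain ⟨-, hspan⟩ := (mem_filter.mp haB).2
      have hoff : ∀ x, x ∉ PI → a x = a0 x := fun x hx => congrFun hres ⟨x, hx⟩
      have hRrows : ∀ i ∈ R, rowS a S i = rowS a0 S i := by
        intro i hi
        funext j
        refine symSign_eq_iff.2 (hoff _ ?_)
        simp only [hPI, mem_image, mem_product, not_exists, not_and, Prod.exists]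
        intro i2 j2 hp h
        simp only [Sym2.eq_iff] at h
        rcases h with ⟨h1, _⟩ | ⟨h1, _⟩
        · exact ((hImem i2).1 hp.1).1 (h1 ▸ hi)
        · exact ((hImem i2).1 hp.1).2 (by rw [h1]; exact j.2)
      rw [Fintype.mem_piFinset]
      intro i
      refine mem_filter.mpr ⟨mem_univ _, ?_⟩
      have hsub : Submodule.span ℝ ((rowS a S) '' (R : Set (Fin n))) ≤ LinearMap.ker ℓ := by
        rw [Submodule.span_le]
        rintro _ ⟨i', hi', rfl⟩
        show ℓ (rowS a S i') = 0
        rw [hRrows i' hi', hℓa0 i']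
      have : ℓ (rowS a S i.1) = 0 := hsub (hspan i.1)
      exact this
    have hinjφ : Set.InjOn φ (((evB S R).filter fun a => res a = res a0 :
        Finset (Sym2 (Fin n) → Bool)) : Set (Sym2 (Fin n) → Bool)) := by
      intro a ha b hb h
      have hresa := (mem_filter.mp (mem_coe.mp ha)).2
      have hresb := (mem_filter.mp (mem_coe.mp hb)).2
      funext x
      by_cases hx : x ∈ PI
      · obtain ⟨⟨i, j⟩, hp, rfl⟩ := mem_image.mp hx
        have hp' := mem_product.mp hp
        have := congrFun (congrFun h ⟨i, hp'.1⟩) ⟨j, hp'.2⟩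
        exact this
      · have h1 : a x = a0 x := congrFun hresa ⟨x, hx⟩
        have h2 : b x = a0 x := congrFun hresb ⟨x, hx⟩
        rw [h1, h2]
    calc ((evB S R).filter fun a => res a = res a0).card
        ≤ (Fintype.piFinset (fun _ : I => Sol)).card :=
          card_le_card_of_injOn φ hmaps hinjφ
      _ = Sol.card ^ I.card := by
          rw [Fintype.card_piFinset]
          simp
      _ ≤ _ := Nat.pow_le_pow_left hSolcard _
  have hmain := card_le_mul_card_image (evB S R) _ hfib
  have hle : PI.card ≤ Fintype.card (Sym2 (Fin n)) := card_le_univ _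
  calc (evB S R).card * 2 ^ (S.card * I.card)
      ≤ ((S.card.choose (S.card / 2)) ^ I.card *
          2 ^ (Fintype.card (Sym2 (Fin n)) - PI.card)) * 2 ^ PI.card := by
        rw [hPIcard] at himg hle ⊢
        exact Nat.mul_le_mul_right _ (hmain.trans (Nat.mul_le_mul_left _ himg))
    _ = (S.card.choose (S.card / 2)) ^ I.card * 2 ^ Fintype.card (Sym2 (Fin n)) := by
        rw [mul_assoc, ← pow_add, Nat.sub_add_cancel hle]
    _ = _ := mul_comm _ _

/-- Wallis bound for central binomial coefficients. -/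
lemma centralBinom_sq_le (m : ℕ) : (Nat.centralBinom m) ^ 2 * (2 * m + 1) ≤ 16 ^ m := by
  induction m with
  | zero => simp
  | succ m ih =>
    have h := Nat.succ_mul_centralBinom_succ m
    have hpos : 0 < (m + 1) ^ 2 := by positivity
    refine Nat.le_of_mul_le_mul_left ?_ hpos
    have e : (m + 1) ^ 2 * ((Nat.centralBinom (m + 1)) ^ 2 * (2 * (m + 1) + 1)) =
        ((m + 1) * Nat.centralBinom (m + 1)) ^ 2 * (2 * m + 3) := by ring
    rw [e, h]
    have hkey : (2 * (2 * m + 1) * Nat.centralBinom m) ^ 2 * (2 * m + 3) =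
        4 * ((2 * m + 1) * (2 * m + 3)) * ((Nat.centralBinom m) ^ 2 * (2 * m + 1)) := by ring
    rw [hkey]
    calc 4 * ((2 * m + 1) * (2 * m + 3)) * ((Nat.centralBinom m) ^ 2 * (2 * m + 1))
        ≤ 4 * ((2 * m + 1) * (2 * m + 3)) * 16 ^ m := Nat.mul_le_mul_left _ ih
      _ ≤ (m + 1) ^ 2 * 16 ^ (m + 1) := by
          have : 4 * ((2 * m + 1) * (2 * m + 3)) ≤ (m + 1) ^ 2 * 16 := by nlinarith
          calc _ ≤ ((m + 1) ^ 2 * 16) * 16 ^ m := Nat.mul_le_mul_right _ this
            _ = _ := by ring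

/-- The Littlewood–Offord ratio satisfies `C(s,⌊s/2⌋)^2 (s+1) ≤ 4^s`. -/
lemma choose_half_sq_le (s : ℕ) : (s.choose (s / 2)) ^ 2 * (s + 1) ≤ 4 ^ s := by
  rcases Nat.even_or_odd' s with ⟨m, rfl | rfl⟩
  · have h1 : (2 * m) / 2 = m := by omega
    rw [h1, ← Nat.centralBinom_eq_two_mul_choose]
    calc _ ≤ 16 ^ m := centralBinom_sq_le m
      _ = 4 ^ (2 * m) := by rw [pow_mul]; norm_num
  · have h1 : (2 * m + 1) / 2 = m := by omega
    rw [h1]
    have h2 : Nat.centralBinom (m + 1) = 2 * (2 * m + 1).choose m := by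
      rw [Nat.centralBinom_eq_two_mul_choose]
      have : 2 * (m + 1) = (2 * m + 1) + 1 := by ring
      rw [this, Nat.choose_succ_succ, Nat.choose_symm_half]
      ring
    have h3 := centralBinom_sq_le (m + 1)
    rw [h2] at h3
    have h4 : 4 * (((2 * m + 1).choose m) ^ 2 * (2 * m + 1 + 1)) ≤ 4 * 4 ^ (2 * m + 1) := by
      calc 4 * (((2 * m + 1).choose m) ^ 2 * (2 * m + 1 + 1))
          ≤ (2 * (2 * m + 1).choose m) ^ 2 * (2 * (m + 1) + 1) := by nlinarith [sq_nonneg ((2 * m + 1).choose m)]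
        _ ≤ 16 ^ (m + 1) := h3
        _ = 4 * 4 ^ (2 * m + 1) := by
            have : (16 : ℕ) = 4 ^ 2 := by norm_num
            rw [this, ← pow_mul]
            ring
    exact Nat.le_of_mul_le_mul_left h4 (by norm_num)

/-- The density of the event `evB S R` is at most the Littlewood–Offord ratio to the power `|I|`. -/
lemma evB_density {n : ℕ} (S R : Finset (Fin n)) :
    ((evB S R).card : ℝ) / 2 ^ Fintype.card (Sym2 (Fin n)) ≤
      (((S.card.choose (S.card / 2) : ℕ) : ℝ) / 2 ^ S.card) ^ (univ \ (R ∪ S)).card := by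
  have h := evB_card_LO S R
  have h' : ((evB S R).card : ℝ) * 2 ^ (S.card * (univ \ (R ∪ S)).card) ≤
      2 ^ Fintype.card (Sym2 (Fin n)) *
        ((S.card.choose (S.card / 2) : ℕ) : ℝ) ^ (univ \ (R ∪ S)).card := by
    exact_mod_cast h
  rw [div_pow, ← pow_mul, div_le_div_iff₀ (by positivity) (by positivity)]
  calc _ ≤ _ := h'
    _ = _ := by ring

/-- **Kernel vectors of support below `n/2`.** For every `ε > 0` and every `E ≥ 1` there is `n₀` such
that for all `n ≥ n₀` the probability that the random symmetric `n × n` sign matrix has a nonzero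
real kernel vector with at most `(n - ⌊n / E⌋) / 2` nonzero coordinates is at most
`2 (1/2 + ε) ^ n`. -/
theorem result (ε : ℝ) (hε : 0 < ε) (E : ℕ) (hE : 0 < E) :
    ∃ n₀ : ℕ, ∀ n : ℕ, n₀ ≤ n → sparseProb n ((n - n / E) / 2) ≤ 2 * (1 / 2 + ε) ^ n := by
  classical
  obtain ⟨D, hD, hsmall⟩ := SparseKernel.result.2 ε hε
  set γ : ℝ := (1 / 64 : ℝ) ^ (4 * E) with hγ
  have hγ0 : 0 < γ := by positivity
  refine ⟨max (4 * E) (⌈(D : ℝ) / γ⌉₊ + 1), ?_⟩
  intro n hn
  have hn1 : 4 * E ≤ n := le_trans (le_max_left _ _) hn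
  have hn2 : ⌈(D : ℝ) / γ⌉₊ + 1 ≤ n := le_trans (le_max_right _ _) hn
  have hnpos : 0 < n := by omega
  have hnR : (0 : ℝ) < n := by exact_mod_cast hnpos
  have hDn : (D : ℝ) / n ≤ γ := by
    have h1 : (D : ℝ) / γ ≤ ⌈(D : ℝ) / γ⌉₊ := Nat.le_ceil _
    have h2 : ((⌈(D : ℝ) / γ⌉₊ : ℕ) : ℝ) ≤ n := by
      have : ⌈(D : ℝ) / γ⌉₊ ≤ n := by omega
      exact_mod_cast this
    have h3 : (D : ℝ) / γ ≤ n := h1.trans h2
    rw [div_le_iff₀ hγ0] at h3
    rw [div_le_iff₀ hnR]
    linarith
  set k := (n - n / E) / 2 with hk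
  set k0 := n / D with hk0
  have hk2 : 2 * k + n / E ≤ n := by
    have : n / E ≤ n := Nat.div_le_self _ _
    omega
  -- the pairs of the middle range
  set P : Finset (Finset (Fin n)) := univ with hP
  set T : Finset (Finset (Fin n) × Finset (Fin n)) :=
    (P ×ˢ P).filter fun p => k0 < p.1.card ∧ p.1.card ≤ k ∧ p.2.card ≤ k with hT
  have hsub : (univ.filter fun a : Sym2 (Fin n) → Bool => HasSparseKernel k a) ⊆
      (univ.filter fun a : Sym2 (Fin n) → Bool => HasSparseKernel k0 a) ∪
        T.biUnion fun p => evB p.1 p.2 := by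
    intro a ha
    obtain ⟨S, R, hne, hS, hR, hmem⟩ := exists_evB (mem_filter.mp ha).2
    rw [mem_union]
    by_cases hcase : S.card ≤ k0
    · left
      obtain ⟨⟨v, hv, hker⟩, -⟩ := (mem_filter.mp hmem).2
      refine mem_filter.mpr ⟨mem_univ _, v, ?_, ?_, hker⟩
      · obtain ⟨j, hj⟩ := hne
        intro h0
        exact (hv j).2 hj (by rw [h0]; rfl)
      · have : (univ.filter fun j => v j ≠ 0) = S := by
          ext j
          simp [hv j]
        rw [this]
        exact hcase
    · right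
      refine mem_biUnion.mpr ⟨(S, R), ?_, hmem⟩
      simp only [hT, hP, mem_filter, mem_product, mem_univ, and_self, true_and]
      exact ⟨by omega, hS, hR⟩
  -- each pair of the middle range has density at most `(1/64)^n`
  have hterm : ∀ p ∈ T, ((evB p.1 p.2).card : ℝ) / 2 ^ Fintype.card (Sym2 (Fin n)) ≤
      (1 / 64 : ℝ) ^ n := by
    rintro ⟨S, R⟩ hp
    simp only [hT, hP, mem_filter, mem_product, mem_univ, and_self, true_and] at hp
    obtain ⟨hS0, hS, hR⟩ := hp
    refine (evB_density S R).trans ?_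
    set κ : ℝ := ((S.card.choose (S.card / 2) : ℕ) : ℝ) / 2 ^ S.card with hκ
    have hκ0 : 0 ≤ κ := by positivity
    have hwallis : κ ^ 2 * ((S.card : ℝ) + 1) ≤ 1 := by
      have h := choose_half_sq_le S.card
      have h' : ((S.card.choose (S.card / 2) : ℕ) : ℝ) ^ 2 * ((S.card : ℝ) + 1) ≤ 4 ^ S.card := by
        exact_mod_cast h
      have h4 : ((2 : ℝ) ^ S.card) ^ 2 = 4 ^ S.card := by
        rw [← pow_mul, mul_comm, pow_mul]; norm_num
      rw [hκ, div_pow, h4, div_mul_eq_mul_div, div_le_one (by positivity)]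
      exact h'
    have hκ2 : κ ^ 2 ≤ (D : ℝ) / n := by
      have hlt : n < D * (n / D + 1) := Nat.lt_mul_div_succ n hD
      have hle : n ≤ D * (S.card + 1) := by
        have : D * (n / D + 1) ≤ D * (S.card + 1) := Nat.mul_le_mul_left _ (by omega)
        omega
      have hle' : (n : ℝ) ≤ D * ((S.card : ℝ) + 1) := by exact_mod_cast hle
      rw [le_div_iff₀ hnR]
      have hκsq : 0 ≤ κ ^ 2 := by positivity
      have hD0 : (0 : ℝ) ≤ D := Nat.cast_nonneg _
      nlinarith
    have hκ2γ : κ ^ 2 ≤ γ := hκ2.trans hDn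
    have hκ1 : κ ≤ 1 := by
      have hs : (0 : ℝ) ≤ S.card := Nat.cast_nonneg _
      have : κ ^ 2 ≤ 1 := by nlinarith [sq_nonneg κ]
      nlinarith [sq_nonneg (κ - 1)]
    set q := n / (2 * E) with hq
    have hI : 2 * q ≤ (univ \ (R ∪ S)).card := by
      have h2 : (univ \ (R ∪ S)).card = n - (R ∪ S).card := by
        rw [card_sdiff_of_subset (subset_univ _)]
        simp
      have h3 : (R ∪ S).card ≤ R.card + S.card := card_union_le _ _
      have h4 : 2 * q ≤ n / E := by
        rw [Nat.le_div_iff_mul_le hE]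
        have : q * (2 * E) ≤ n := Nat.div_mul_le_self _ _
        calc 2 * q * E = q * (2 * E) := by ring
          _ ≤ n := this
      omega
    have hq4 : n ≤ (4 * E) * q := by
      have h1 := Nat.div_add_mod n (2 * E)
      have h2 := Nat.mod_lt n (show 0 < 2 * E by omega)
      have h3 : (4 * E) * q = 2 * ((2 * E) * q) := by ring
      rw [h3]
      rw [← hq] at h1
      omega
    calc κ ^ (univ \ (R ∪ S)).card ≤ κ ^ (2 * q) := pow_le_pow_of_le_one hκ0 hκ1 hI
      _ = (κ ^ 2) ^ q := pow_mul _ _ _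
      _ ≤ γ ^ q := pow_le_pow_left₀ (by positivity) hκ2γ q
      _ = (1 / 64 : ℝ) ^ ((4 * E) * q) := by rw [hγ, ← pow_mul]
      _ ≤ (1 / 64 : ℝ) ^ n := pow_le_pow_of_le_one (by norm_num) (by norm_num) hq4
  have hTcard : ((T.card : ℕ) : ℝ) ≤ 4 ^ n := by
    have h1 : T.card ≤ (P ×ˢ P).card := card_filter_le _ _
    have h2 : (P ×ˢ P).card = 2 ^ n * 2 ^ n := by
      rw [card_product, hP, card_univ]
      simp
    have h3 : T.card ≤ 4 ^ n := by
      rw [h2] at h1
      calc T.card ≤ 2 ^ n * 2 ^ n := h1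
        _ = 4 ^ n := by rw [← mul_pow]; norm_num
    exact_mod_cast h3
  set N : ℝ := 2 ^ Fintype.card (Sym2 (Fin n)) with hN
  have hN0 : 0 < N := by positivity
  have hcount : ((univ.filter fun a : Sym2 (Fin n) → Bool => HasSparseKernel k a).card : ℝ) ≤
      ((univ.filter fun a : Sym2 (Fin n) → Bool => HasSparseKernel k0 a).card : ℝ) +
        ∑ p ∈ T, ((evB p.1 p.2).card : ℝ) := by
    have h1 := card_le_card hsub
    have h2 := card_union_le (univ.filter fun a : Sym2 (Fin n) → Bool => HasSparseKernel k0 a)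
      (T.biUnion fun p => evB p.1 p.2)
    have h3 : (T.biUnion fun p => evB p.1 p.2).card ≤ ∑ p ∈ T, (evB p.1 p.2).card :=
      card_biUnion_le
    have h4 : (univ.filter fun a : Sym2 (Fin n) → Bool => HasSparseKernel k a).card ≤
        (univ.filter fun a : Sym2 (Fin n) → Bool => HasSparseKernel k0 a).card +
          ∑ p ∈ T, (evB p.1 p.2).card := by omega
    exact_mod_cast h4
  have hprob : ∀ m : ℕ, sparseProb n m =
      ((univ.filter fun a : Sym2 (Fin n) → Bool => HasSparseKernel m a).card : ℝ) / N := by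
    intro m
    unfold sparseProb
    have hc : ((Fintype.card (Sym2 (Fin n) → Bool) : ℕ) : ℝ) = N := by
      simp [hN]
    rw [hc]
  have hsum : ∑ p ∈ T, ((evB p.1 p.2).card : ℝ) / N ≤ (1 / 16 : ℝ) ^ n := by
    calc ∑ p ∈ T, ((evB p.1 p.2).card : ℝ) / N ≤ ∑ _p ∈ T, (1 / 64 : ℝ) ^ n :=
          sum_le_sum hterm
      _ = (T.card : ℝ) * (1 / 64 : ℝ) ^ n := by simp
      _ ≤ 4 ^ n * (1 / 64 : ℝ) ^ n :=
          mul_le_mul_of_nonneg_right hTcard (by positivity)
      _ = (1 / 16 : ℝ) ^ n := by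
          rw [← mul_pow]; norm_num
  have h16 : (1 / 16 : ℝ) ^ n ≤ (1 / 2 + ε) ^ n :=
    pow_le_pow_left₀ (by norm_num) (by linarith) n
  calc sparseProb n k
      = ((univ.filter fun a : Sym2 (Fin n) → Bool => HasSparseKernel k a).card : ℝ) / N := hprob k
    _ ≤ (((univ.filter fun a : Sym2 (Fin n) → Bool => HasSparseKernel k0 a).card : ℝ) +
          ∑ p ∈ T, ((evB p.1 p.2).card : ℝ)) / N := div_le_div_of_nonneg_right hcount hN0.le
    _ = sparseProb n k0 + ∑ p ∈ T, ((evB p.1 p.2).card : ℝ) / N := by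
        rw [add_div, hprob k0, Finset.sum_div]
    _ ≤ (1 / 2 + ε) ^ n + (1 / 2 + ε) ^ n := add_le_add (hsmall n) (hsum.trans h16)
    _ = 2 * (1 / 2 + ε) ^ n := by ring

end Vale.Agent.Results.P160.ASparseHalf
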