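import Mathlib

open Finset

namespace Vale.Agent.Results.P160.SparseKernel

/-- The symmetric sign matrix with independent entries indexed by unordered pairs
`{i,j}` (diagonal pairs `{i,i}` included): the entry is `1` if `a {i,j}` is true and `-1` if not. -/
def symSign {n : ℕ} (a : Sym2 (Fin n) → Bool) (i j : Fin n) : ℝ :=
  if a s(i, j) then 1 else -1

/-- `A v = 0` for some nonzero real vector `v` with at most `k` nonzero coordinates. -/
def HasSparseKernel {n : ℕ} (k : ℕ) (a : Sym2 (Fin n) → Bool) : Prop :=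
  ∃ v : Fin n → ℝ, v ≠ 0 ∧ (univ.filter fun j => v j ≠ 0).card ≤ k ∧
    ∀ i, ∑ j, symSign a i j * v j = 0

open scoped Classical in
/-- The probability, for the uniform measure on the `2 ^ (number of unordered pairs)` symmetric sign
matrices, of having a nonzero kernel vector with at most `k` nonzero coordinates. -/
noncomputable def sparseProb (n k : ℕ) : ℝ :=
  ((univ.filter fun a : Sym2 (Fin n) → Bool => HasSparseKernel k a).card : ℝ) /
    (Fintype.card (Sym2 (Fin n) → Bool) : ℝ)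

/-- Erase lemma: a family of Boolean functions in which two members agreeing off `Q` are equal
has density at most `2 ^ (-|Q|)`. -/
lemma card_mul_two_pow_le {α : Type} [Fintype α] [DecidableEq α]
    (F : Finset (α → Bool)) (Q : Finset α)
    (h : ∀ a ∈ F, ∀ b ∈ F, (∀ x, x ∉ Q → a x = b x) → a = b) :
    F.card * 2 ^ Q.card ≤ 2 ^ Fintype.card α := by
  classical
  have hcard : (F ×ˢ (univ : Finset (Q → Bool))).card = F.card * 2 ^ Q.card := by
    rw [card_product, card_univ]
    simp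
  have hc2 : (univ : Finset (α → Bool)).card = 2 ^ Fintype.card α := by
    rw [card_univ]; simp
  rw [← hcard, ← hc2]
  refine card_le_card_of_injOn
    (fun p x => if hx : x ∈ Q then p.2 ⟨x, hx⟩ else p.1 x) (fun _ _ => mem_univ _) ?_
  rintro ⟨a, b⟩ hp ⟨a', b'⟩ hp' heq
  simp only [coe_product, Set.mem_prod, mem_coe, coe_univ, Set.mem_univ, and_true] at hp hp'
  have hoff : ∀ x, x ∉ Q → a x = a' x := by
    intro x hx
    have := congrFun heq x
    simpa [hx] using this
  have ha : a = a' := h a hp a' hp' hoff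
  have hb : b = b' := by
    funext x
    have := congrFun heq x.1
    simpa [x.2] using this
  rw [ha, hb]

/-- The rows of the matrix restricted to the coordinates in `S`. -/
def rowS {n : ℕ} (a : Sym2 (Fin n) → Bool) (S : Finset (Fin n)) (i : Fin n) : S → ℝ :=
  fun j => symSign a i j

open scoped Classical in
/-- The event attached to a support `S` and a row set `R`. -/
noncomputable def evB {n : ℕ} (S R : Finset (Fin n)) : Finset (Sym2 (Fin n) → Bool) :=
  univ.filter fun a =>
    (∃ v : Fin n → ℝ, (∀ j, v j ≠ 0 ↔ j ∈ S) ∧ ∀ i, ∑ j, symSign a i j * v j = 0) ∧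
      ∀ i, rowS a S i ∈ Submodule.span ℝ ((rowS a S) '' (R : Set (Fin n)))

lemma symSign_eq_iff {n : ℕ} {a b : Sym2 (Fin n) → Bool} {i j : Fin n} :
    symSign a i j = symSign b i j ↔ a s(i, j) = b s(i, j) := by
  unfold symSign
  cases a s(i, j) <;> cases b s(i, j) <;> norm_num

lemma symSign_ne_zero {n : ℕ} (a : Sym2 (Fin n) → Bool) (i j : Fin n) : symSign a i j ≠ 0 := by
  unfold symSign
  split_ifs <;> norm_num

/-- The sum over `j` is a sum over the support `S`. -/
lemma sum_rowS {n : ℕ} (a : Sym2 (Fin n) → Bool) (S : Finset (Fin n)) (v : Fin n → ℝ)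
    (hv : ∀ j, v j ≠ 0 ↔ j ∈ S) (i : Fin n) :
    ∑ j : S, rowS a S i j * v j = ∑ j, symSign a i j * v j := by
  classical
  have h1 : ∑ j : S, rowS a S i j * v j = ∑ j ∈ S, symSign a i j * v j :=
    Finset.sum_coe_sort S (fun j => symSign a i j * v j)
  rw [h1]
  refine Finset.sum_subset (subset_univ _) ?_
  intro j _ hj
  have : v j = 0 := by
    by_contra hne
    exact hj ((hv j).1 hne)
  simp [this]

/-- The key count for fixed `S` and `R`. -/
lemma evB_card {n : ℕ} (S R : Finset (Fin n)) (hS : S.Nonempty) :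
    (evB S R).card * 2 ^ ((univ \ (R ∪ S)).card) ≤ 2 ^ Fintype.card (Sym2 (Fin n)) := by
  classical
  obtain ⟨j0, hj0⟩ := hS
  set I : Finset (Fin n) := univ \ (R ∪ S) with hI
  have hImem : ∀ i, i ∈ I ↔ i ∉ R ∧ i ∉ S := by
    intro i
    simp [hI]
  set Q : Finset (Sym2 (Fin n)) := I.image (fun i => s(i, j0)) with hQ
  have hQcard : Q.card = I.card := by
    refine card_image_of_injOn ?_
    intro i hi i' hi' h
    have hi1 := ((hImem i).1 hi).2
    simp only [Sym2.eq_iff] at h
    rcases h with ⟨h, _⟩ | ⟨h, _⟩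
    · exact h
    · exact absurd (h ▸ hj0) hi1
  rw [← hQcard]
  refine card_mul_two_pow_le (evB S R) Q ?_
  intro a ha b hb hagree
  have ha' := (mem_filter.mp ha).2
  have hb' := (mem_filter.mp hb).2
  obtain ⟨⟨v, hv, hker⟩, -⟩ := ha'
  obtain ⟨-, hspan⟩ := hb'
  -- the rows in `R` agree
  have hRrows : ∀ i ∈ R, rowS b S i = rowS a S i := by
    intro i hi
    funext j
    refine symSign_eq_iff.2 ?_
    symm
    refine hagree _ ?_
    simp only [hQ, mem_image, not_exists, not_and]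
    intro i2 hi2 h
    simp only [Sym2.eq_iff] at h
    rcases h with ⟨h1, _⟩ | ⟨h2, _⟩
    · exact ((hImem i2).1 hi2).1 (h1 ▸ hi)
    · exact ((hImem i2).1 hi2).2 (by rw [h2]; exact j.2)
  -- the functional `u ↦ ∑ u j * v j`
  let ℓ : (S → ℝ) →ₗ[ℝ] ℝ :=
    { toFun := fun u => ∑ j : S, u j * v j
      map_add' := by
        intro x y
        simp only [Pi.add_apply, add_mul, Finset.sum_add_distrib]
      map_smul' := by
        intro c x
        simp only [Pi.smul_apply, smul_eq_mul, RingHom.id_apply, Finset.mul_sum, mul_assoc] }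
  have hℓa : ∀ i, ℓ (rowS a S i) = 0 := by
    intro i
    show ∑ j : S, rowS a S i j * v j = 0
    rw [sum_rowS a S v hv i, hker i]
  have hℓb : ∀ i, ℓ (rowS b S i) = 0 := by
    intro i
    have hmem := hspan i
    have hsub : Submodule.span ℝ ((rowS b S) '' (R : Set (Fin n))) ≤ LinearMap.ker ℓ := by
      rw [Submodule.span_le]
      rintro _ ⟨i', hi', rfl⟩
      show ℓ (rowS b S i') = 0
      rw [hRrows i' hi', hℓa i']
    exact hsub hmem
  -- agreement on `Q`
  have hQagree : ∀ i ∈ I, a s(i, j0) = b s(i, j0) := by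
    intro i hi
    have hiS := ((hImem i).1 hi).2
    have h1 := hℓa i
    have h2 := hℓb i
    have hdiff : ∑ j : S, (rowS a S i j - rowS b S i j) * v j = 0 := by
      have h1' : ∑ j : S, rowS a S i j * v j = 0 := h1
      have h2' : ∑ j : S, rowS b S i j * v j = 0 := h2
      simp only [sub_mul, Finset.sum_sub_distrib, h1', h2', sub_zero]
    have hsingle : ∑ j : S, (rowS a S i j - rowS b S i j) * v j =
        (rowS a S i ⟨j0, hj0⟩ - rowS b S i ⟨j0, hj0⟩) * v j0 := by
      refine Finset.sum_eq_single (⟨j0, hj0⟩ : S) ?_ (by simp)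
      intro j _ hj
      have hne : (j : Fin n) ≠ j0 := fun h => hj (Subtype.ext h)
      have : rowS a S i j = rowS b S i j := by
        refine symSign_eq_iff.2 ?_
        refine hagree _ ?_
        simp only [hQ, mem_image, not_exists, not_and]
        intro i2 _ h
        simp only [Sym2.eq_iff] at h
        rcases h with ⟨_, h2⟩ | ⟨_, h1⟩
        · exact hne h2.symm
        · exact hiS (by rw [← h1]; exact hj0)
      rw [this]; simp
    rw [hsingle] at hdiff
    have hv0 : v j0 ≠ 0 := (hv j0).2 hj0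
    have hsub : rowS a S i ⟨j0, hj0⟩ - rowS b S i ⟨j0, hj0⟩ = 0 :=
      (mul_eq_zero.mp hdiff).resolve_right hv0
    exact symSign_eq_iff.1 (sub_eq_zero.mp hsub)
  funext x
  by_cases hx : x ∈ Q
  · obtain ⟨i, hi, rfl⟩ := mem_image.mp hx
    exact hQagree i hi
  · exact hagree x hx

/-- A matrix with a sparse kernel vector lies in some event `evB S R` with `|S|, |R| ≤ k`. -/
lemma exists_evB {n k : ℕ} {a : Sym2 (Fin n) → Bool} (h : HasSparseKernel k a) :
    ∃ S R : Finset (Fin n), S.Nonempty ∧ S.card ≤ k ∧ R.card ≤ k ∧ a ∈ evB S R := by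
  classical
  obtain ⟨v, hv0, hcard, hker⟩ := h
  set S : Finset (Fin n) := univ.filter fun j => v j ≠ 0 with hS
  have hSmem : ∀ j, v j ≠ 0 ↔ j ∈ S := by
    intro j; simp [hS]
  have hne : S.Nonempty := by
    by_contra hemp
    rw [not_nonempty_iff_eq_empty] at hemp
    apply hv0
    funext j
    by_contra hj
    have := (hSmem j).1 hj
    rw [hemp] at this
    simp at this
  obtain ⟨f, hf, hspan, -⟩ :=
    Submodule.exists_fun_fin_finrank_span_eq ℝ (Set.range (rowS a S))
  choose g hg using hf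
  let R : Finset (Fin n) := univ.image g
  have hRcard : R.card ≤ k := by
    have h1 : R.card ≤ Module.finrank ℝ (Submodule.span ℝ (Set.range (rowS a S))) := by
      calc R.card ≤ (univ : Finset (Fin (Module.finrank ℝ
            (Submodule.span ℝ (Set.range (rowS a S)))))).card := card_image_le
        _ = _ := by simp
    have h2 : Module.finrank ℝ (Submodule.span ℝ (Set.range (rowS a S))) ≤ S.card := by
      calc _ ≤ Module.finrank ℝ (S → ℝ) := Submodule.finrank_le _
        _ = S.card := by simp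
    omega
  refine ⟨S, R, hne, hcard, hRcard, ?_⟩
  refine mem_filter.mpr ⟨mem_univ _, ⟨v, hSmem, hker⟩, ?_⟩
  intro i
  have hle : Set.range f ⊆ (rowS a S) '' (R : Set (Fin n)) := by
    rintro _ ⟨m, rfl⟩
    refine ⟨g m, ?_, hg m⟩
    simp [R]
  have h3 : Submodule.span ℝ (Set.range (rowS a S)) ≤
      Submodule.span ℝ ((rowS a S) '' (R : Set (Fin n))) := by
    rw [← hspan]
    exact Submodule.span_mono hle
  exact h3 (Submodule.subset_span ⟨i, rfl⟩)

/-- The number of subsets of size at most `k`. -/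
lemma card_small_subsets (n k : ℕ) :
    ((univ : Finset (Finset (Fin n))).filter fun S => S.card ≤ k).card =
      ∑ j ∈ range (k + 1), n.choose j := by
  classical
  have h : ((univ : Finset (Finset (Fin n))).filter fun S => S.card ≤ k) =
      (range (k + 1)).biUnion fun j => powersetCard j (univ : Finset (Fin n)) := by
    ext S
    simp [mem_biUnion, mem_powersetCard]
  rw [h, card_biUnion]
  · refine sum_congr rfl fun j _ => ?_
    simp
  · intro i _ j _ hij
    exact pairwise_disjoint_powersetCard _ hij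

/-- The main count. -/
theorem main_count (n k : ℕ) :
    open scoped Classical in
    (univ.filter fun a : Sym2 (Fin n) → Bool => HasSparseKernel k a).card * 2 ^ n ≤
      (∑ j ∈ range (k + 1), n.choose j) ^ 2 * 4 ^ k * 2 ^ Fintype.card (Sym2 (Fin n)) := by
  classical
  set P : Finset (Finset (Fin n)) := (univ : Finset (Finset (Fin n))).filter fun S => S.card ≤ k
    with hP
  have hPcard : P.card = ∑ j ∈ range (k + 1), n.choose j := card_small_subsets n k
  set T : Finset (Finset (Fin n) × Finset (Fin n)) :=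
    (P ×ˢ P).filter fun p => p.1.Nonempty with hT
  have hsub : (univ.filter fun a : Sym2 (Fin n) → Bool => HasSparseKernel k a) ⊆
      T.biUnion fun p => evB p.1 p.2 := by
    intro a ha
    obtain ⟨S, R, hne, hS, hR, hmem⟩ := exists_evB (mem_filter.mp ha).2
    refine mem_biUnion.mpr ⟨(S, R), ?_, hmem⟩
    simp [hT, hP, hne, hS, hR]
  have hbound : ∀ p ∈ T, (evB p.1 p.2).card * 2 ^ n ≤
      4 ^ k * 2 ^ Fintype.card (Sym2 (Fin n)) := by
    rintro ⟨S, R⟩ hp
    simp only [hT, hP, mem_filter, mem_product, mem_univ, true_and] at hp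
    obtain ⟨⟨hS, hR⟩, hne⟩ := hp
    have h1 := evB_card S R hne
    have hI : n ≤ (univ \ (R ∪ S)).card + 2 * k := by
      have h2 : (univ \ (R ∪ S)).card = n - (R ∪ S).card := by
        rw [card_sdiff_of_subset (subset_univ _)]
        simp
      have h3 : (R ∪ S).card ≤ R.card + S.card := card_union_le _ _
      omega
    calc (evB S R).card * 2 ^ n
        ≤ (evB S R).card * 2 ^ ((univ \ (R ∪ S)).card + 2 * k) :=
          Nat.mul_le_mul_left _ (Nat.pow_le_pow_right (by norm_num) hI)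
      _ = 4 ^ k * ((evB S R).card * 2 ^ ((univ \ (R ∪ S)).card)) := by
          rw [pow_add, pow_mul]; norm_num; ring
      _ ≤ 4 ^ k * 2 ^ Fintype.card (Sym2 (Fin n)) := Nat.mul_le_mul_left _ h1
  calc (univ.filter fun a : Sym2 (Fin n) → Bool => HasSparseKernel k a).card * 2 ^ n
      ≤ (T.biUnion fun p => evB p.1 p.2).card * 2 ^ n :=
        Nat.mul_le_mul_right _ (card_le_card hsub)
    _ ≤ (∑ p ∈ T, (evB p.1 p.2).card) * 2 ^ n :=
        Nat.mul_le_mul_right _ card_biUnion_le
    _ = ∑ p ∈ T, (evB p.1 p.2).card * 2 ^ n := by rw [Finset.sum_mul]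
    _ ≤ ∑ _p ∈ T, 4 ^ k * 2 ^ Fintype.card (Sym2 (Fin n)) := sum_le_sum hbound
    _ = T.card * (4 ^ k * 2 ^ Fintype.card (Sym2 (Fin n))) := by simp
    _ ≤ (P.card * P.card) * (4 ^ k * 2 ^ Fintype.card (Sym2 (Fin n))) := by
        refine Nat.mul_le_mul_right _ ?_
        calc T.card ≤ (P ×ˢ P).card := card_filter_le _ _
          _ = P.card * P.card := card_product _ _
    _ = _ := by rw [hPcard]; ring

/-- The sum of the first binomial coefficients, weighted. -/
lemma sum_choose_mul_le (n k : ℕ) (hk : k ≤ n) {x : ℝ} (hx0 : 0 < x) (hx1 : x ≤ 1) :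
    ((∑ j ∈ range (k + 1), n.choose j : ℕ) : ℝ) * x ^ k ≤ (1 + x) ^ n := by
  have h1 : ((∑ j ∈ range (k + 1), n.choose j : ℕ) : ℝ) * x ^ k =
      ∑ j ∈ range (k + 1), (n.choose j : ℝ) * x ^ k := by
    rw [Nat.cast_sum, Finset.sum_mul]
  have h2 : ∑ j ∈ range (k + 1), (n.choose j : ℝ) * x ^ k ≤
      ∑ j ∈ range (k + 1), x ^ j * 1 ^ (n - j) * (n.choose j : ℝ) := by
    refine sum_le_sum fun j hj => ?_
    have hj' : j ≤ k := Nat.lt_succ_iff.mp (mem_range.mp hj)
    have : x ^ k ≤ x ^ j := pow_le_pow_of_le_one hx0.le hx1 hj'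
    have hc : (0 : ℝ) ≤ n.choose j := Nat.cast_nonneg _
    simp only [one_pow, mul_one]
    nlinarith
  have h3 : ∑ j ∈ range (k + 1), x ^ j * 1 ^ (n - j) * (n.choose j : ℝ) ≤
      ∑ j ∈ range (n + 1), x ^ j * 1 ^ (n - j) * (n.choose j : ℝ) := by
    refine sum_le_sum_of_subset_of_nonneg ?_ ?_
    · intro j hj
      simp only [mem_range] at hj ⊢
      omega
    · intro j _ _
      positivity
  have h4 : ∑ j ∈ range (n + 1), x ^ j * 1 ^ (n - j) * (n.choose j : ℝ) = (x + 1) ^ n :=
    (add_pow x 1 n).symm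
  rw [h1]
  calc _ ≤ _ := h2
    _ ≤ _ := h3
    _ = (x + 1) ^ n := h4
    _ = (1 + x) ^ n := by rw [add_comm]

/-- **Sparse kernel vectors of symmetric sign matrices.** Let `A` be the random symmetric `n × n`
sign matrix and `k ≤ n`. (1) With probability at most `V ^ 2 * 4 ^ k / 2 ^ n`, where
`V = ∑_{j ≤ k} (n choose j)`, there is a nonzero real vector `v` with at most `k` nonzero coordinates
and `A v = 0`. (2) Hence for every `ε > 0` there is `D ≥ 1` such that for all `n`, with `k = ⌊n / D⌋`,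
this probability is at most `(1/2 + ε) ^ n`. -/
theorem result :
    (∀ n k : ℕ, sparseProb n k ≤
      ((∑ j ∈ range (k + 1), n.choose j : ℕ) : ℝ) ^ 2 * 4 ^ k / 2 ^ n) ∧
    (∀ ε : ℝ, 0 < ε → ∃ D : ℕ, 0 < D ∧ ∀ n : ℕ, sparseProb n (n / D) ≤ (1 / 2 + ε) ^ n) := by
  have hfirst : ∀ n k : ℕ, sparseProb n k ≤
      ((∑ j ∈ range (k + 1), n.choose j : ℕ) : ℝ) ^ 2 * 4 ^ k / 2 ^ n := by
    intro n k
    classical
    have h := main_count n k
    unfold sparseProb
    have hc : ((Fintype.card (Sym2 (Fin n) → Bool) : ℕ) : ℝ) = 2 ^ Fintype.card (Sym2 (Fin n)) := by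
      simp
    rw [hc, div_le_div_iff₀ (by positivity) (by positivity)]
    have h' : (((univ.filter fun a : Sym2 (Fin n) → Bool => HasSparseKernel k a).card * 2 ^ n : ℕ) : ℝ)
        ≤ (((∑ j ∈ range (k + 1), n.choose j) ^ 2 * 4 ^ k * 2 ^ Fintype.card (Sym2 (Fin n)) : ℕ) : ℝ) :=
      Nat.cast_le.mpr (by convert h)
    push_cast at h' ⊢
    convert h' using 2
  refine ⟨hfirst, ?_⟩
  intro ε hε
  -- choice of `x`
  obtain ⟨x, hx0, hx1, hx2⟩ : ∃ x : ℝ, 0 < x ∧ x ≤ 1 ∧ (1 + x) ^ 2 ≤ 1 + ε := by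
    refine ⟨min (ε / 3) 1, lt_min (by linarith) one_pos, min_le_right _ _, ?_⟩
    have h1 : min (ε / 3) 1 ≤ ε / 3 := min_le_left _ _
    have h2 : min (ε / 3) 1 ≤ 1 := min_le_right _ _
    have h3 : 0 < min (ε / 3) 1 := lt_min (by linarith) one_pos
    nlinarith
  set ρ : ℝ := (1 + 2 * ε) / (1 + ε) with hρ
  have hρ1 : 1 < ρ := by
    rw [hρ, one_lt_div (by linarith)]
    linarith
  obtain ⟨D0, hD0⟩ := pow_unbounded_of_one_lt (4 / x ^ 2) hρ1
  refine ⟨D0 + 1, Nat.succ_pos _, ?_⟩
  intro n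
  set D := D0 + 1 with hD
  set k := n / D with hk
  have hkn : k ≤ n := Nat.div_le_self _ _
  have hDk : D * k ≤ n := Nat.mul_div_le _ _
  have hV := sum_choose_mul_le n k hkn hx0 hx1
  set V : ℝ := ((∑ j ∈ range (k + 1), n.choose j : ℕ) : ℝ) with hVdef
  have hV0 : 0 ≤ V := Nat.cast_nonneg _
  -- `4 / x^2 ≤ ρ ^ D`
  have hq : 4 / x ^ 2 ≤ ρ ^ D := by
    have : ρ ^ D0 ≤ ρ ^ D := pow_le_pow_right₀ hρ1.le (by omega)
    linarith
  have hq0 : 0 ≤ 4 / x ^ 2 := by positivity
  have hqk : (4 / x ^ 2) ^ k ≤ ρ ^ n := by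
    calc (4 / x ^ 2) ^ k ≤ (ρ ^ D) ^ k := pow_le_pow_left₀ hq0 hq k
      _ = ρ ^ (D * k) := (pow_mul _ _ _).symm
      _ ≤ ρ ^ n := pow_le_pow_right₀ hρ1.le hDk
  have hmain : V ^ 2 * 4 ^ k ≤ (1 + 2 * ε) ^ n := by
    have hxk : 0 < x ^ k := by positivity
    have h1 : V ^ 2 * (x ^ k) ^ 2 ≤ ((1 + x) ^ n) ^ 2 := by
      have : (V * x ^ k) ^ 2 ≤ ((1 + x) ^ n) ^ 2 :=
        pow_le_pow_left₀ (by positivity) hV 2
      rwa [mul_pow] at this
    have h2 : ((1 + x) ^ n) ^ 2 ≤ (1 + ε) ^ n := by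
      rw [← pow_mul, mul_comm, pow_mul]
      exact pow_le_pow_left₀ (by positivity) hx2 n
    have h3 : V ^ 2 ≤ (1 + ε) ^ n / (x ^ k) ^ 2 := by
      rw [le_div_iff₀ (by positivity)]
      linarith
    have h4 : (4 : ℝ) ^ k / (x ^ k) ^ 2 = (4 / x ^ 2) ^ k := by
      rw [div_pow, ← pow_mul, ← pow_mul, mul_comm]
    have hρn : (1 + ε) ^ n * ρ ^ n = (1 + 2 * ε) ^ n := by
      rw [← mul_pow, hρ]
      congr 1
      field_simp
    calc V ^ 2 * 4 ^ k ≤ (1 + ε) ^ n / (x ^ k) ^ 2 * 4 ^ k :=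
          mul_le_mul_of_nonneg_right h3 (by positivity)
      _ = (1 + ε) ^ n * (4 ^ k / (x ^ k) ^ 2) := by ring
      _ = (1 + ε) ^ n * (4 / x ^ 2) ^ k := by rw [h4]
      _ ≤ (1 + ε) ^ n * ρ ^ n := mul_le_mul_of_nonneg_left hqk (by positivity)
      _ = (1 + 2 * ε) ^ n := hρn
  calc sparseProb n k ≤ V ^ 2 * 4 ^ k / 2 ^ n := hfirst n k
    _ ≤ (1 + 2 * ε) ^ n / 2 ^ n := by
        exact div_le_div_of_nonneg_right hmain (by positivity)
    _ = (1 / 2 + ε) ^ n := by
        rw [← div_pow]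
        congr 1
        ring

end Vale.Agent.Results.P160.SparseKernel
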